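import Vale.Agent.P151.Lattice

namespace Vale.Agent.P151

open Finset

variable {d : ℕ} {p : ℝ}

def face (a : Pt d) (t : ℤ) (l0 : Fin d) (σ : Fin d → ℤˣ) (y : Pt d) : Prop :=
  (∀ l, 0 ≤ (σ l : ℤ) * (y l - a l) ∧ (σ l : ℤ) * (y l - a l) ≤ t) ∧
    (σ l0 : ℤ) * (y l0 - a l0) = t

noncomputable def fp (d : ℕ) (p : ℝ) (m t : ℤ) : ℝ :=
  Ex p (latE (cube (0 : Pt (d + 2)) t))
    (fun S => ind (¬ ∃ v, v ∈ cube 0 m ∧ ∃ y, face 0 t 0 1 y ∧ conn S v y))

lemma fp_eq (a : Pt (d + 2)) (m t : ℤ) (l0 : Fin (d + 2)) (σ : Fin (d + 2) → ℤˣ) :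
    Ex p (latE (cube a t))
      (fun S => ind (¬ ∃ v, v ∈ cube a m ∧ ∃ y, face a t l0 σ y ∧ conn S v y)) = fp d p m t := by
  rw [Ex_aut a (Equiv.swap 0 l0) σ t (fun v => v ∈ cube a m) (face a t l0 σ)]
  unfold fp
  have : ∀ y, face a t l0 σ (aut a (Equiv.swap 0 l0) σ y) ↔ face 0 t 0 1 y := by
    intro y
    have e : ∀ l, (σ l : ℤ) * (aut a (Equiv.swap 0 l0) σ y l - a l) = y (Equiv.swap 0 l0 l) := by
      intro l
      rw [aut_apply, add_sub_cancel_left, ← mul_assoc, Int.units_coe_mul_self, one_mul]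
    simp only [face, e, Equiv.swap_apply_right, Pi.one_apply, Units.val_one, Pi.zero_apply,
      sub_zero, one_mul]
    exact and_congr_left fun _ =>
      ⟨fun h l => by simpa using h (Equiv.swap 0 l0 l), fun h l => h _⟩
  simp only [aut_cube, this]

lemma fp_nonneg (h0 : 0 ≤ p) (h1 : p ≤ 1) (m t : ℤ) : 0 ≤ fp d p m t :=
  Ex_nonneg h0 h1 fun _ _ => ind_nonneg _

lemma harris_prod {ι κ : Type*} [DecidableEq ι] [DecidableEq κ] (h0 : 0 ≤ p) (h1 : p ≤ 1)
    (E : Finset ι) (W : Finset κ) (P : κ → Finset ι → Prop)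
    (hP : ∀ k S S', S ⊆ S' → P k S' → P k S) :
    ∏ k ∈ W, Ex p E (fun S => ind (P k S)) ≤ Ex p E (fun S => ind (∀ k ∈ W, P k S)) := by
  induction W using Finset.induction_on with
  | empty => simp [ind, Ex_const]
  | insert a W ha ih =>
    rw [Finset.prod_insert ha]
    refine le_trans (mul_le_mul_of_nonneg_left ih (Ex_nonneg h0 h1 fun _ _ => ind_nonneg _)) ?_
    refine le_trans (harris_anti2 h0 h1 E (fun S S' h => ind_mono (hP a S S' h))
      (fun S S' h => ind_mono fun hh k hk => hP k S S' h (hh k hk))) (le_of_eq ?_)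
    exact Ex_congr fun S _ => by rw [← ind_and]; exact ind_congr (by simp)

def bd (a : Pt d) (r : ℤ) (z : Pt d) : Prop := z ∈ cube a r ∧ ∃ l, |z l - a l| = r

lemma sqrt_trick (h0 : 0 ≤ p) (h1 : p ≤ 1) (m t : ℤ) :
    fp d p m t ^ Fintype.card (Fin (d + 2) × (Fin (d + 2) → ℤˣ)) ≤
      Ex p (latE (cube (0 : Pt (d + 2)) t))
        (fun S => ind (¬ ∃ v, v ∈ cube 0 m ∧ ∃ y, bd 0 t y ∧ conn S v y)) := by
  have := harris_prod h0 h1 (latE (cube (0 : Pt (d + 2)) t))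
    (univ : Finset (Fin (d + 2) × (Fin (d + 2) → ℤˣ)))
    (fun k S => ¬ ∃ v, v ∈ cube 0 m ∧ ∃ y, face 0 t k.1 k.2 y ∧ conn S v y)
    (fun k S S' h hn ⟨v, h1, y, h2, h3⟩ => hn ⟨v, h1, y, h2, conn_mono h h3⟩)
  simp only [fp_eq] at this
  rw [Finset.prod_const, card_univ] at this
  refine this.trans (Ex_mono h0 h1 fun S _ => ind_mono ?_)
  rintro h ⟨v, hv, y, ⟨hy, l, hl⟩, hc⟩
  refine h (l, fun i => if 0 ≤ y i then 1 else -1) (mem_univ _) ⟨v, hv, y, ?_, hc⟩
  have e : ∀ i, ((if 0 ≤ y i then 1 else -1 : ℤˣ) : ℤ) * (y i - (0 : Pt (d + 2)) i) =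
      |y i - (0 : Pt (d + 2)) i| := by
    intro i
    simp only [Pi.zero_apply, sub_zero]
    split_ifs with h
    · simp [abs_of_nonneg h]
    · simp [abs_of_neg (not_le.1 h)]
  refine ⟨fun i => ?_, ?_⟩
  · simp only [e]; exact ⟨abs_nonneg _, mem_cube.1 hy i⟩
  · simp only [e]; exact hl

noncomputable def arm (d : ℕ) (p : ℝ) (r : ℤ) : ℝ :=
  Ex p (latE (cube (0 : Pt d) r)) (fun S => ind (∃ y, bd 0 r y ∧ conn S 0 y))

lemma arm_eq (a : Pt d) (r : ℤ) :
    Ex p (latE (cube a r)) (fun S => ind (∃ y, bd a r y ∧ conn S a y)) = arm d p r := by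
  have h := Ex_aut (p := p) a 1 1 r (fun v => v = a) (bd a r)
  have e1 : ∀ v, aut a 1 1 v = a ↔ v = 0 := fun v => by
    simp [funext_iff, aut_apply]
  have e2 : ∀ y, bd a r (aut a 1 1 y) ↔ bd 0 r y := fun y => by
    simp [bd, aut_cube, aut_abs]
  simp only [e1, e2, exists_eq_left, Ex_ind_not] at h
  unfold arm
  linarith

lemma cube_sub {a b : Pt d} {r s : ℤ} (h : ∀ l, |a l - b l| + r ≤ s) : cube a r ⊆ cube b s := by
  intro x hx
  rw [mem_cube] at hx ⊢
  intro l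
  have := abs_sub_le (x l) (a l) (b l)
  linarith [hx l, h l]

lemma arm_sub {a : Pt d} {r r' : ℤ} (hr : 0 ≤ r) (h : r ≤ r') {S : Finset (Sym2 (Pt d))}
    (hy : ∃ y, bd a r' y ∧ conn (S ∩ latE (cube a r')) a y) :
    ∃ y, bd a r y ∧ conn (S ∩ latE (cube a r)) a y := by
  obtain ⟨y, ⟨_, l, hl⟩, hc⟩ := hy
  obtain ⟨z, h1, h2⟩ := exit_cube (a := a) (r := r)
    (fun e he => (mem_latE.1 (mem_inter.1 he).2).2) (mem_cube.2 fun l => by simpa using hr) hc
    ⟨l, by omega⟩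
  exact ⟨z, h1, conn_mono (inter_subset_inter inter_subset_left subset_rfl) h2⟩

lemma cross_bound (h0 : 0 ≤ p) (h1 : p ≤ 1) (N r : ℕ) (t : ℤ) (m : ℤ) (hm : m = N * (2 * r + 1))
    (ht : m ≤ t) (hr : (r : ℤ) ≤ t) :
    Ex p (latE (cube (0 : Pt (d + 2)) t))
        (fun S => ind (¬ ∃ v, v ∈ cube 0 m ∧ ∃ y, bd 0 t y ∧ conn S v y)) ≤
      (1 - arm (d + 2) p r) ^ N + N * (arm (d + 2) p r - arm (d + 2) p (t + m)) := by
  set x : ℕ → Pt (d + 2) := fun i => Pi.single 0 ((i : ℤ) * (2 * r + 1)) with hx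
  have m0 : 0 ≤ m := by rw [hm]; positivity
  have hxm : ∀ i ∈ range N, ∀ l, |x i l - (0 : Pt (d + 2)) l| ≤ m := by
    intro i hi l
    have hi' : (i : ℤ) ≤ N := by exact_mod_cast (mem_range.1 hi).le
    by_cases hl : l = 0
    · subst hl
      simp only [hx, Pi.single_eq_same, Pi.zero_apply, sub_zero]
      rw [abs_of_nonneg (by positivity), hm]
      exact mul_le_mul_of_nonneg_right hi' (by positivity)
    · simp [hx, hl, m0]
  set E := latE (cube (0 : Pt (d + 2)) (t + 2 * m))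
  have s1 : ∀ i ∈ range N, latE (cube (x i) (t + m)) ⊆ E := fun i hi =>
    latE_mono (cube_sub fun l => by linarith [hxm i hi l])
  have s2 : ∀ i ∈ range N, latE (cube (x i) r) ⊆ E := fun i hi =>
    latE_mono (cube_sub fun l => by linarith [hxm i hi l])
  have s3 : latE (cube (0 : Pt (d + 2)) t) ⊆ E := latE_mono (cube_sub fun l => by simp; omega)
  rw [← Ex_restrict s3]
  have i1 : Ex p E (fun S => ind (¬ ∃ v, v ∈ cube (0 : Pt (d + 2)) m ∧ ∃ y, bd 0 t y ∧
      conn (S ∩ latE (cube 0 t)) v y)) ≤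
      Ex p E (fun S => ∏ i ∈ range N, ind (¬ ∃ y, bd (x i) r y ∧
        conn (S ∩ latE (cube (x i) r)) (x i) y) + ∑ i ∈ range N,
        (ind (∃ y, bd (x i) r y ∧ conn (S ∩ latE (cube (x i) r)) (x i) y) -
          ind (∃ y, bd (x i) (t + m) y ∧ conn (S ∩ latE (cube (x i) (t + m))) (x i) y))) := by
    refine Ex_mono h0 h1 fun S _ => ?_
    rw [← ind_forall]
    have e : ∀ i ∈ range N, ind (∃ y, bd (x i) r y ∧ conn (S ∩ latE (cube (x i) r)) (x i) y) -
        ind (∃ y, bd (x i) (t + m) y ∧ conn (S ∩ latE (cube (x i) (t + m))) (x i) y) =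
        ind ((∃ y, bd (x i) r y ∧ conn (S ∩ latE (cube (x i) r)) (x i) y) ∧
          ¬ ∃ y, bd (x i) (t + m) y ∧ conn (S ∩ latE (cube (x i) (t + m))) (x i) y) := by
      intro i _
      rw [ind_and, ind_not]
      by_cases hb : ∃ y, bd (x i) (t + m) y ∧ conn (S ∩ latE (cube (x i) (t + m))) (x i) y
      · rw [ind_true hb, ind_true (arm_sub (by positivity) (by omega) hb)]; ring
      · rw [ind_false hb]; ring
    rw [Finset.sum_congr rfl e]
    refine le_trans (ind_or_le ?_) (add_le_add le_rfl (ind_exists_le _ _))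
    intro hn
    by_cases hall : ∀ i ∈ range N, ¬ ∃ y, bd (x i) r y ∧ conn (S ∩ latE (cube (x i) r)) (x i) y
    · exact Or.inl hall
    · push Not at hall
      obtain ⟨i, hi, hy⟩ := hall
      refine Or.inr ⟨i, hi, hy, ?_⟩
      rintro ⟨y, ⟨_, l, hl⟩, hc⟩
      obtain ⟨z, h1, h2⟩ := exit_cube (a := 0) (r := t)
        (fun e he => (mem_latE.1 (mem_inter.1 he).2).2)
        (mem_cube.2 fun l => (hxm i hi l).trans ht) hc ⟨l, by
          have := abs_sub_le (y l) ((0 : Pt (d + 2)) l) (x i l)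
          have := hxm i hi l
          rw [abs_sub_comm] at this
          linarith⟩
      exact hn ⟨x i, mem_cube.2 (hxm i hi), z, h1,
        conn_mono (inter_subset_inter inter_subset_left subset_rfl) h2⟩
  refine i1.trans (le_of_eq ?_)
  rw [Ex_add, Ex_sum, Ex_prod (range N) (fun i => latE (cube (x i) r))
    (fun i R => ind (¬ ∃ y, bd (x i) r y ∧ conn R (x i) y)) ?_ E s2]
  · congr 1
    · rw [Finset.prod_congr rfl (g := fun _ => 1 - arm (d + 2) p r)
        (fun i _ => by rw [Ex_ind_not, arm_eq]), Finset.prod_const, card_range]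
    · rw [Finset.sum_congr rfl (g := fun _ => arm (d + 2) p r - arm (d + 2) p (t + m))
        (fun i hi => by
          rw [Ex_sub, Ex_restrict (s2 i hi) (fun R => ind (∃ y, bd (x i) r y ∧ conn R (x i) y)),
            Ex_restrict (s1 i hi) (fun R => ind (∃ y, bd (x i) (t + m) y ∧ conn R (x i) y)),
            arm_eq, arm_eq]), Finset.sum_const, card_range, nsmul_eq_mul]
  · intro i _ j _ hij
    rw [Finset.disjoint_left]
    intro e h1 h2
    induction e using Sym2.ind with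
    | h u v =>
      have a1 := abs_le.1 (mem_cube.1 (mk_mem_latE.1 h1).1 0)
      have a2 := abs_le.1 (mem_cube.1 (mk_mem_latE.1 h2).1 0)
      simp only [hx, Pi.single_eq_same] at a1 a2
      rcases lt_or_gt_of_ne hij with h | h
      · have : (i : ℤ) + 1 ≤ j := by exact_mod_cast h
        nlinarith
      · have : (j : ℤ) + 1 ≤ i := by exact_mod_cast h
        nlinarith

lemma basic_input (h0 : 0 ≤ p) (h1 : p ≤ 1) {θ : ℝ} (hθ : 0 < θ)
    (harm : ∀ r : ℕ, θ ≤ arm (d + 2) p r) {δ : ℝ} (hδ : 0 < δ) :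
    ∃ m : ℕ, ∀ t : ℕ, m ≤ t → fp d p m t < δ := by
  set M := Fintype.card (Fin (d + 2) × (Fin (d + 2) → ℤˣ))
  have hM : 0 < δ ^ M := pow_pos hδ _
  have θ1 : θ ≤ 1 := (harm 0).trans (Ex_le h0 h1 fun _ _ => ind_le_one _)
  obtain ⟨N, hN⟩ := exists_pow_lt_of_lt_one (half_pos hM) (show 1 - θ < 1 by linarith)
  have hbdd : BddBelow (Set.range fun r : ℕ => arm (d + 2) p r) := ⟨θ, by rintro _ ⟨r, rfl⟩; exact harm r⟩
  have hγ : 0 < δ ^ M / 2 / (N + 1) := by positivity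
  obtain ⟨r, hr⟩ := exists_lt_of_ciInf_lt (f := fun r : ℕ => arm (d + 2) p r)
    (lt_add_of_pos_right (⨅ r : ℕ, arm (d + 2) p r) hγ)
  refine ⟨(N + 1) * (2 * r + 1), fun t ht => ?_⟩
  have ht' : (((N + 1) * (2 * r + 1) : ℕ) : ℤ) ≤ t := by exact_mod_cast ht
  have hb := cross_bound (d := d) h0 h1 (N + 1) r t (((N + 1) * (2 * r + 1) : ℕ) : ℤ)
    (by push_cast; ring) ht' (by push_cast at ht'; nlinarith)
  have hi := ciInf_le hbdd (t + (N + 1) * (2 * r + 1))
  have a1 : arm (d + 2) p r ≤ 1 := Ex_le h0 h1 fun _ _ => ind_le_one _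
  have a2 : (1 - arm (d + 2) p r) ^ (N + 1) ≤ (1 - θ) ^ N :=
    (pow_le_pow_left₀ (by linarith) (by linarith [harm r]) _).trans
      (pow_le_pow_of_le_one (by linarith) (by linarith) (by omega))
  have a3 : ((N + 1 : ℕ) : ℝ) * (arm (d + 2) p r -
      arm (d + 2) p (t + (((N + 1) * (2 * r + 1) : ℕ) : ℤ))) ≤ δ ^ M / 2 := by
    have : arm (d + 2) p r - arm (d + 2) p (t + (((N + 1) * (2 * r + 1) : ℕ) : ℤ)) ≤
        δ ^ M / 2 / (N + 1) := by
      rw [Nat.cast_add t] at hi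
      linarith
    rw [le_div_iff₀ (by positivity)] at this
    push_cast at this ⊢
    linarith
  have := (sqrt_trick (d := d) h0 h1 (((N + 1) * (2 * r + 1) : ℕ) : ℤ) t).trans hb
  exact lt_of_pow_lt_pow_left₀ M hδ.le (by linarith)

end Vale.Agent.P151
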