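import Vale.Agent.P151.Ex

namespace Vale.Agent.P151

open Finset

variable {V : Type*} [DecidableEq V]

def conn (ω : Finset (Sym2 V)) (x y : V) : Prop :=
  Relation.ReflTransGen (fun a b => s(a, b) ∈ ω) x y

def cl (ω : Finset (Sym2 V)) (X : Set V) : Set V := {v | ∃ x ∈ X, conn ω x v}

def closedU (ω : Finset (Sym2 V)) (T : Set V) : Prop := ∀ a b, a ∈ T → s(a, b) ∈ ω → b ∈ T

def touch (T : Set V) : Set (Sym2 V) := {e | ∃ v ∈ T, v ∈ e}

open Classical in
noncomputable def rm (T : Set V) (S : Finset (Sym2 V)) : Finset (Sym2 V) :=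
  S.filter (· ∉ touch T)

omit [DecidableEq V] in
lemma conn_refl (ω : Finset (Sym2 V)) (x : V) : conn ω x x := Relation.ReflTransGen.refl

omit [DecidableEq V] in
lemma conn_trans {ω : Finset (Sym2 V)} {x y z : V} (h : conn ω x y) (h' : conn ω y z) :
    conn ω x z := Relation.ReflTransGen.trans h h'

omit [DecidableEq V] in
lemma conn_edge {ω : Finset (Sym2 V)} {x y : V} (h : s(x, y) ∈ ω) : conn ω x y :=
  Relation.ReflTransGen.single h

omit [DecidableEq V] in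
lemma conn_symm {ω : Finset (Sym2 V)} {x y : V} (h : conn ω x y) : conn ω y x := by
  induction h with
  | refl => exact conn_refl _ _
  | tail _ h2 ih => exact conn_trans (conn_edge (by rwa [Sym2.eq_swap])) ih

omit [DecidableEq V] in
lemma conn_mono {ω ω' : Finset (Sym2 V)} (h : ω ⊆ ω') {x y : V} (hc : conn ω x y) :
    conn ω' x y := by
  induction hc with
  | refl => exact conn_refl _ _
  | tail _ h2 ih => exact conn_trans ih (conn_edge (h h2))

omit [DecidableEq V] in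
lemma mem_cl_single {ω : Finset (Sym2 V)} {x v : V} : v ∈ cl ω {x} ↔ conn ω x v := by
  simp [cl]

omit [DecidableEq V] in
lemma subset_cl (ω : Finset (Sym2 V)) (X : Set V) : X ⊆ cl ω X :=
  fun x hx => ⟨x, hx, conn_refl _ _⟩

omit [DecidableEq V] in
lemma cl_mono {ω ω' : Finset (Sym2 V)} {X X' : Set V} (h : ω ⊆ ω') (hX : X ⊆ X') :
    cl ω X ⊆ cl ω' X' := fun _ ⟨x, hx, hc⟩ => ⟨x, hX hx, conn_mono h hc⟩

omit [DecidableEq V] in
lemma cl_closed (ω : Finset (Sym2 V)) (X : Set V) : closedU ω (cl ω X) :=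
  fun _ _ ⟨x, hx, hc⟩ he => ⟨x, hx, conn_trans hc (conn_edge he)⟩

omit [DecidableEq V] in
lemma closed_conn {ω : Finset (Sym2 V)} {T : Set V} (hT : closedU ω T) {x y : V} (hx : x ∈ T)
    (hc : conn ω x y) : y ∈ T := by
  induction hc with
  | refl => exact hx
  | tail _ h2 ih => exact hT _ _ ih h2

omit [DecidableEq V] in
lemma cl_subset {ω : Finset (Sym2 V)} {X T : Set V} (hX : X ⊆ T) (hT : closedU ω T) :
    cl ω X ⊆ T := fun _ ⟨_, hx, hc⟩ => closed_conn hT (hX hx) hc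

omit [DecidableEq V] in
lemma closed_compl {ω : Finset (Sym2 V)} {T : Set V} (hT : closedU ω T) : closedU ω Tᶜ :=
  fun a b ha he hb => ha (hT b a hb (by rwa [Sym2.eq_swap]))

omit [DecidableEq V] in
lemma closed_mono {ω ω' : Finset (Sym2 V)} {T : Set V} (h : ω' ⊆ ω) (hT : closedU ω T) :
    closedU ω' T := fun a b ha he => hT a b ha (h he)

omit [DecidableEq V] in
lemma cl_empty (ω : Finset (Sym2 V)) : cl ω (∅ : Set V) = ∅ := by simp [cl]

omit [DecidableEq V] in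
lemma cl_insert (ω : Finset (Sym2 V)) (z : V) (Y : Set V) :
    cl ω (insert z Y) = cl ω {z} ∪ cl ω Y := by
  ext v; simp [cl]

omit [DecidableEq V] in
lemma cl_single_eq {ω : Finset (Sym2 V)} {z v : V} (h : v ∈ cl ω {z}) : cl ω {v} = cl ω {z} := by
  ext w
  rw [mem_cl_single] at h
  rw [mem_cl_single, mem_cl_single]
  exact ⟨fun h' => conn_trans h h', fun h' => conn_trans (conn_symm h) h'⟩

omit [DecidableEq V] in
lemma cl_single_subset {ω : Finset (Sym2 V)} {z : V} {Y : Set V} (h : z ∈ cl ω Y) :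
    cl ω {z} ⊆ cl ω Y := cl_subset (by simpa using h) (cl_closed _ _)

omit [DecidableEq V] in
lemma not_mem_cl_iff {ω : Finset (Sym2 V)} {z : V} {Y : Set V} :
    z ∉ cl ω Y ↔ Disjoint (cl ω {z}) Y := by
  rw [Set.disjoint_left]
  constructor
  · intro h v hv hY
    exact h ⟨v, hY, conn_symm (mem_cl_single.1 hv)⟩
  · rintro h ⟨y, hy, hc⟩
    exact h (mem_cl_single.2 (conn_symm hc)) hy

omit [DecidableEq V] in
lemma disjoint_cl {ω : Finset (Sym2 V)} {z : V} {Y : Set V} (h : z ∉ cl ω Y) :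
    Disjoint (cl ω {z}) (cl ω Y) := by
  rw [Set.disjoint_left]
  rintro v hv ⟨y, hy, hc⟩
  exact h ⟨y, hy, conn_trans hc (conn_symm (mem_cl_single.1 hv))⟩

omit [DecidableEq V] in
lemma cl_stop {ω ω' : Finset (Sym2 V)} {X : Set V}
    (h : ∀ e ∈ touch (cl ω X), e ∈ ω ↔ e ∈ ω') : cl ω' X = cl ω X := by
  apply Set.Subset.antisymm
  · refine cl_subset (subset_cl _ _) fun a b ha he => ?_
    exact cl_closed ω X a b ha ((h _ ⟨a, ha, Sym2.mem_mk_left _ _⟩).2 he)
  · rintro v ⟨x, hx, hc⟩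
    refine ⟨x, hx, ?_⟩
    induction hc with
    | refl => exact conn_refl _ _
    | tail h1 h2 ih =>
      exact conn_trans ih (conn_edge ((h _ ⟨_, ⟨x, hx, h1⟩, Sym2.mem_mk_left _ _⟩).1 h2))

lemma mem_rm {T : Set V} {S : Finset (Sym2 V)} {e : Sym2 V} :
    e ∈ rm T S ↔ e ∈ S ∧ e ∉ touch T := by simp [rm]

lemma rm_subset (T : Set V) (S : Finset (Sym2 V)) : rm T S ⊆ S := fun _ h => (mem_rm.1 h).1

lemma rm_mono {T T' : Set V} {S S' : Finset (Sym2 V)} (hT : T' ⊆ T) (hS : S ⊆ S') :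
    rm T S ⊆ rm T' S' := fun _ h =>
  mem_rm.2 ⟨hS (mem_rm.1 h).1, fun ⟨v, hv, he⟩ => (mem_rm.1 h).2 ⟨v, hT hv, he⟩⟩

lemma rm_empty (T : Set V) : rm T (∅ : Finset (Sym2 V)) = ∅ := by simp [rm]

lemma rm_mix (T : Set V) (S S' : Finset (Sym2 V)) : rm T (mix (touch T) S S') = rm T S' := by
  ext e; simp only [mem_rm, mem_mix]; tauto

/- Removing the random edges touching a closed set does not change clusters outside it. -/
lemma cl_rm {B S : Finset (Sym2 V)} {T Y : Set V} (hT : closedU (B ∪ S) T) (hY : Disjoint T Y) :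
    cl (B ∪ rm T S) Y = cl (B ∪ S) Y := by
  apply cl_stop
  rintro e ⟨v, hv, he⟩
  have hv' : v ∉ T := cl_subset (Set.disjoint_right.1 hY) (closed_compl hT) hv
  simp only [mem_union, mem_rm]
  constructor
  · rintro (h | h)
    · exact Or.inl h
    · refine Or.inr ⟨h, ?_⟩
      rintro ⟨w, hw, hwe⟩
      have hne : w ≠ v := fun h => hv' (h ▸ hw)
      have : e = s(w, v) := (Sym2.mem_and_mem_iff hne).1 ⟨hwe, he⟩
      exact hv' (hT w v hw (by rw [← this]; exact mem_union_right _ h))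
  · rintro (h | h)
    · exact Or.inl h
    · exact Or.inr h.1

lemma cl_diff {B S : Finset (Sym2 V)} {T Y : Set V} (hT : closedU (B ∪ S) T) :
    cl (B ∪ S) Y \ T = cl (B ∪ rm T S) (Y \ T) := by
  rw [cl_rm hT Set.disjoint_sdiff_right]
  ext v
  constructor
  · rintro ⟨⟨y, hy, hc⟩, hv⟩
    exact ⟨y, ⟨hy, fun h => hv (closed_conn hT h hc)⟩, hc⟩
  · rintro ⟨y, hy, hc⟩
    exact ⟨⟨y, hy.1, hc⟩, fun h => hy.2 (closed_conn hT h (conn_symm hc))⟩

variable {p : ℝ}

lemma markov_gen (E : Finset (Sym2 V)) (K : Finset (Sym2 V) → Set V)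
    (hK : ∀ S S', K (mix (touch (K S)) S S') = K S) (Ψ : Set V → Finset (Sym2 V) → ℝ) :
    Ex p E (fun S => Ψ (K S) (rm (K S) S)) =
      Ex p E (fun S => Ex p E (fun S' => Ψ (K S) (rm (K S) S'))) := by
  rw [Ex_swap E (fun S => touch (K S)) (fun S S' => by simp only [hK])]
  refine Ex_congr fun S _ => Ex_congr fun S' _ => ?_
  simp only [hK, rm_mix]

lemma stop_rm (B : Finset (Sym2 V)) (T X : Set V) (S S' : Finset (Sym2 V)) :
    cl (B ∪ rm T (mix (touch (cl (B ∪ rm T S) X)) S S')) X = cl (B ∪ rm T S) X := by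
  apply cl_stop
  intro e he
  simp only [mem_union, mem_rm, mem_mix]
  tauto

lemma stop_cl (B : Finset (Sym2 V)) (X : Set V) (S S' : Finset (Sym2 V)) :
    cl (B ∪ (mix (touch (cl (B ∪ S) X)) S S')) X = cl (B ∪ S) X := by
  apply cl_stop
  intro e he
  simp only [mem_union, mem_mix]
  tauto

lemma markov (E B : Finset (Sym2 V)) (X : Set V) (Ψ : Set V → Finset (Sym2 V) → ℝ) :
    Ex p E (fun S => Ψ (cl (B ∪ S) X) (rm (cl (B ∪ S) X) S)) =
      Ex p E (fun S => Ex p E (fun S' => Ψ (cl (B ∪ S) X) (rm (cl (B ∪ S) X) S'))) :=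
  markov_gen E (fun S => cl (B ∪ S) X) (stop_cl B X) Ψ

lemma markov' {E B : Finset (Sym2 V)} (X : Set V) (Ψ : Set V → Finset (Sym2 V) → ℝ)
    {F : Finset (Sym2 V) → ℝ} (h : ∀ S, F S = Ψ (cl (B ∪ S) X) (rm (cl (B ∪ S) X) S)) :
    Ex p E F =
      Ex p E (fun S => Ex p E (fun S' => Ψ (cl (B ∪ S) X) (rm (cl (B ∪ S) X) S'))) := by
  rw [← markov E B X Ψ]
  exact Ex_congr fun S _ => h S

end Vale.Agent.P151
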