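import Mathlib

namespace Vale.Agent.P151

open Finset

variable {ι : Type*} [DecidableEq ι]

open Classical in
noncomputable def ind (P : Prop) : ℝ := if P then 1 else 0

lemma ind_true {P : Prop} (h : P) : ind P = 1 := by simp [ind, h]
lemma ind_false {P : Prop} (h : ¬ P) : ind P = 0 := by simp [ind, h]
lemma ind_nonneg (P : Prop) : 0 ≤ ind P := by unfold ind; split_ifs <;> norm_num
lemma ind_le_one (P : Prop) : ind P ≤ 1 := by unfold ind; split_ifs <;> norm_num
lemma ind_mono {P Q : Prop} (h : P → Q) : ind P ≤ ind Q := by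
  by_cases hp : P
  · rw [ind_true hp, ind_true (h hp)]
  · rw [ind_false hp]; exact ind_nonneg _
lemma ind_congr {P Q : Prop} (h : P ↔ Q) : ind P = ind Q := by rw [propext h]
lemma ind_and (P Q : Prop) : ind (P ∧ Q) = ind P * ind Q := by
  by_cases hp : P <;> by_cases hq : Q <;> simp [ind, hp, hq]
lemma ind_not (P : Prop) : ind (¬ P) = 1 - ind P := by
  by_cases hp : P <;> simp [ind, hp]

noncomputable def wt (p : ℝ) (E S : Finset ι) : ℝ := ∏ e ∈ E, if e ∈ S then p else 1 - p

noncomputable def Ex (p : ℝ) (E : Finset ι) (F : Finset ι → ℝ) : ℝ :=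
  ∑ S ∈ E.powerset, wt p E S * F S

variable {p : ℝ}

lemma wt_nonneg (h0 : 0 ≤ p) (h1 : p ≤ 1) (E S : Finset ι) : 0 ≤ wt p E S := by
  unfold wt
  refine Finset.prod_nonneg fun e _ => ?_
  split_ifs <;> linarith

lemma Ex_empty (F : Finset ι → ℝ) : Ex p ∅ F = F ∅ := by simp [Ex, wt]

lemma Ex_insert {E : Finset ι} {e : ι} (he : e ∉ E) (F : Finset ι → ℝ) :
    Ex p (insert e E) F = p * Ex p E (fun S => F (insert e S)) + (1 - p) * Ex p E F := by
  unfold Ex
  rw [Finset.sum_powerset_insert he, Finset.mul_sum, Finset.mul_sum, add_comm]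
  congr 1
  · refine Finset.sum_congr rfl fun S hS => ?_
    have : wt p (insert e E) (insert e S) = p * wt p E S := by
      unfold wt
      rw [Finset.prod_insert he, if_pos (mem_insert_self _ _)]
      congr 1
      refine Finset.prod_congr rfl fun x hx => ?_
      have : x ≠ e := fun h => he (h ▸ hx)
      simp [this]
    rw [this]; ring
  · refine Finset.sum_congr rfl fun S hS => ?_
    have : wt p (insert e E) S = (1 - p) * wt p E S := by
      unfold wt
      rw [Finset.prod_insert he, if_neg (fun h => he (mem_powerset.1 hS h))]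
    rw [this]; ring

lemma Ex_const (E : Finset ι) (c : ℝ) : Ex p E (fun _ => c) = c := by
  induction E using Finset.induction_on with
  | empty => exact Ex_empty _
  | insert e E he ih => rw [Ex_insert he, ih]; ring

lemma Ex_congr {E : Finset ι} {F G : Finset ι → ℝ} (h : ∀ S, S ⊆ E → F S = G S) :
    Ex p E F = Ex p E G :=
  Finset.sum_congr rfl fun S hS => by rw [h S (mem_powerset.1 hS)]

lemma Ex_add (E : Finset ι) (F G : Finset ι → ℝ) :
    Ex p E (fun S => F S + G S) = Ex p E F + Ex p E G := by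
  unfold Ex; rw [← Finset.sum_add_distrib]; exact Finset.sum_congr rfl fun S _ => by ring

lemma Ex_sub (E : Finset ι) (F G : Finset ι → ℝ) :
    Ex p E (fun S => F S - G S) = Ex p E F - Ex p E G := by
  unfold Ex; rw [← Finset.sum_sub_distrib]; exact Finset.sum_congr rfl fun S _ => by ring

lemma Ex_mul_left (E : Finset ι) (c : ℝ) (F : Finset ι → ℝ) :
    Ex p E (fun S => c * F S) = c * Ex p E F := by
  unfold Ex; rw [Finset.mul_sum]; exact Finset.sum_congr rfl fun S _ => by ring

lemma Ex_mul_right (E : Finset ι) (c : ℝ) (F : Finset ι → ℝ) :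
    Ex p E (fun S => F S * c) = Ex p E F * c := by
  unfold Ex; rw [Finset.sum_mul]; exact Finset.sum_congr rfl fun S _ => by ring

lemma Ex_sum {κ : Type*} (E : Finset ι) (I : Finset κ) (F : κ → Finset ι → ℝ) :
    Ex p E (fun S => ∑ i ∈ I, F i S) = ∑ i ∈ I, Ex p E (F i) := by
  unfold Ex
  rw [Finset.sum_comm]
  exact Finset.sum_congr rfl fun S _ => by rw [Finset.mul_sum]

lemma Ex_mono (h0 : 0 ≤ p) (h1 : p ≤ 1) {E : Finset ι} {F G : Finset ι → ℝ}
    (h : ∀ S, S ⊆ E → F S ≤ G S) : Ex p E F ≤ Ex p E G :=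
  Finset.sum_le_sum fun S hS =>
    mul_le_mul_of_nonneg_left (h S (mem_powerset.1 hS)) (wt_nonneg h0 h1 _ _)

lemma Ex_nonneg (h0 : 0 ≤ p) (h1 : p ≤ 1) {E : Finset ι} {F : Finset ι → ℝ}
    (h : ∀ S, S ⊆ E → 0 ≤ F S) : 0 ≤ Ex p E F := by
  have := Ex_mono h0 h1 (E := E) (F := fun _ => 0) (G := F) h
  rwa [Ex_const] at this

lemma Ex_le (h0 : 0 ≤ p) (h1 : p ≤ 1) {E : Finset ι} {F : Finset ι → ℝ} {c : ℝ}
    (h : ∀ S, S ⊆ E → F S ≤ c) : Ex p E F ≤ c := by
  have := Ex_mono h0 h1 (E := E) (F := F) (G := fun _ => c) h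
  rwa [Ex_const] at this

lemma Ex_ind_not (E : Finset ι) (P : Finset ι → Prop) :
    Ex p E (fun S => ind (¬ P S)) = 1 - Ex p E (fun S => ind (P S)) := by
  simp_rw [ind_not]; rw [Ex_sub, Ex_const]

lemma Ex_comm {κ : Type*} [DecidableEq κ] {q : ℝ} (E : Finset ι) (E' : Finset κ)
    (F : Finset ι → Finset κ → ℝ) :
    Ex p E (fun S => Ex q E' (fun S' => F S S')) = Ex q E' (fun S' => Ex p E (fun S => F S S')) := by
  unfold Ex
  simp_rw [Finset.mul_sum]
  rw [Finset.sum_comm]
  refine Finset.sum_congr rfl fun S _ => Finset.sum_congr rfl fun S' _ => by ring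

lemma Ex_union {A B : Finset ι} (h : Disjoint A B) (F : Finset ι → ℝ) :
    Ex p (A ∪ B) F = Ex p A (fun S => Ex p B (fun S' => F (S ∪ S'))) := by
  induction A using Finset.induction_on generalizing F with
  | empty => simp [Ex_empty]
  | insert e A he ih =>
    have hB : e ∉ B := fun hb => Finset.disjoint_left.1 h (mem_insert_self _ _) hb
    have hd : Disjoint A B := h.mono_left (subset_insert _ _)
    have he' : e ∉ A ∪ B := by simp [he, hB]
    rw [Finset.insert_union, Ex_insert he', Ex_insert he, ih hd, ih hd]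
    simp_rw [Finset.insert_union]

lemma Ex_split {A E : Finset ι} (h : A ⊆ E) (F : Finset ι → ℝ) :
    Ex p E F = Ex p A (fun S => Ex p (E \ A) (fun S' => F (S ∪ S'))) := by
  rw [← Ex_union Finset.disjoint_sdiff, Finset.union_sdiff_of_subset h]

lemma Ex_split' {A E : Finset ι} (h : A ⊆ E) (F : Finset ι → ℝ) :
    Ex p E F = Ex p (E \ A) (fun S' => Ex p A (fun S => F (S ∪ S'))) := by
  rw [Ex_split h, Ex_comm]

lemma union_inter_eq {A E S S' : Finset ι} (hS : S ⊆ A) (hS' : S' ⊆ E \ A) :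
    (S ∪ S') ∩ A = S := by
  ext x
  simp only [mem_inter, mem_union]
  constructor
  · rintro ⟨h | h, hx⟩
    · exact h
    · exact absurd hx (mem_sdiff.1 (hS' h)).2
  · intro h; exact ⟨Or.inl h, hS h⟩

lemma union_sdiff_eq {A E S S' : Finset ι} (hS : S ⊆ A) (hS' : S' ⊆ E \ A) :
    (S ∪ S') \ A = S' := by
  ext x
  simp only [mem_sdiff, mem_union]
  constructor
  · rintro ⟨h | h, hx⟩
    · exact absurd (hS h) hx
    · exact h
  · intro h; exact ⟨Or.inr h, (mem_sdiff.1 (hS' h)).2⟩

lemma Ex_restrict {A E : Finset ι} (h : A ⊆ E) (F : Finset ι → ℝ) :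
    Ex p E (fun S => F (S ∩ A)) = Ex p A F := by
  rw [Ex_split h]
  refine Ex_congr fun S hS => ?_
  rw [← Ex_const (p := p) (E \ A) (F S)]
  exact Ex_congr fun S' hS' => by rw [union_inter_eq hS hS']

lemma Ex_indep {A B E : Finset ι} (hA : A ⊆ E) (hB : B ⊆ E) (hd : Disjoint A B)
    (F G : Finset ι → ℝ) :
    Ex p E (fun S => F (S ∩ A) * G (S ∩ B)) = Ex p A F * Ex p B G := by
  rw [Ex_split hA, ← Ex_mul_right]
  refine Ex_congr fun S hS => ?_
  have hB' : B ⊆ E \ A := fun x hx =>
    mem_sdiff.2 ⟨hB hx, fun ha => Finset.disjoint_left.1 hd ha hx⟩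
  rw [← Ex_restrict hB' G, ← Ex_mul_left]
  refine Ex_congr fun S' hS' => ?_
  rw [union_inter_eq hS hS']
  congr 2
  ext x
  simp only [mem_inter, mem_union]
  constructor
  · rintro ⟨h | h, hx⟩
    · exact absurd hx (Finset.disjoint_left.1 hd (hS h))
    · exact ⟨h, hx⟩
  · rintro ⟨h, hx⟩; exact ⟨Or.inr h, hx⟩

lemma harris (h0 : 0 ≤ p) (h1 : p ≤ 1) (E : Finset ι) {F G : Finset ι → ℝ}
    (hF : Monotone F) (hG : Monotone G) :
    Ex p E F * Ex p E G ≤ Ex p E (fun S => F S * G S) := by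
  induction E using Finset.induction_on generalizing F G with
  | empty => simp [Ex_empty]
  | insert e E he ih =>
    rw [Ex_insert he, Ex_insert he, Ex_insert he]
    have hF' : Monotone fun S => F (insert e S) := fun S T h => hF (insert_subset_insert _ h)
    have hG' : Monotone fun S => G (insert e S) := fun S T h => hG (insert_subset_insert _ h)
    have i1 := ih hF' hG'
    have i2 := ih hF hG
    have m1 : Ex p E F ≤ Ex p E (fun S => F (insert e S)) :=
      Ex_mono h0 h1 fun S _ => hF (subset_insert _ _)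
    have m2 : Ex p E G ≤ Ex p E (fun S => G (insert e S)) :=
      Ex_mono h0 h1 fun S _ => hG (subset_insert _ _)
    have k1 := mul_le_mul_of_nonneg_left i1 h0
    have k2 := mul_le_mul_of_nonneg_left i2 (sub_nonneg.2 h1)
    have k3 := mul_nonneg (mul_nonneg h0 (sub_nonneg.2 h1))
      (mul_nonneg (sub_nonneg.2 m1) (sub_nonneg.2 m2))
    nlinarith

lemma harris_anti (h0 : 0 ≤ p) (h1 : p ≤ 1) (E : Finset ι) {F G : Finset ι → ℝ}
    (hF : Monotone F) (hG : Antitone G) :
    Ex p E (fun S => F S * G S) ≤ Ex p E F * Ex p E G := by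
  have h := harris h0 h1 E hF (G := fun S => (-1) * G S) (fun S T h => by
    have := hG h; linarith)
  rw [Ex_mul_left] at h
  have e : Ex p E (fun S => F S * ((-1) * G S)) = (-1) * Ex p E (fun S => F S * G S) := by
    rw [← Ex_mul_left]; exact Ex_congr fun S _ => by ring
  rw [e] at h; linarith

lemma harris_anti2 (h0 : 0 ≤ p) (h1 : p ≤ 1) (E : Finset ι) {F G : Finset ι → ℝ}
    (hF : Antitone F) (hG : Antitone G) :
    Ex p E F * Ex p E G ≤ Ex p E (fun S => F S * G S) := by
  have h := harris h0 h1 E (F := fun S => (-1) * F S) (G := fun S => (-1) * G S)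
    (fun S T h => by have := hF h; linarith) (fun S T h => by have := hG h; linarith)
  rw [Ex_mul_left, Ex_mul_left] at h
  have e : Ex p E (fun S => (-1) * F S * ((-1) * G S)) = Ex p E (fun S => F S * G S) :=
    Ex_congr fun S _ => by ring
  rw [e] at h; linarith

lemma Ex_ge_empty (h0 : 0 ≤ p) (h1 : p ≤ 1) (E : Finset ι) {F : Finset ι → ℝ}
    (hF : ∀ S, S ⊆ E → 0 ≤ F S) : (1 - p) ^ E.card * F ∅ ≤ Ex p E F := by
  have : wt p E ∅ = (1 - p) ^ E.card := by simp [wt]
  rw [← this]
  exact Finset.single_le_sum (f := fun S => wt p E S * F S)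
    (fun S hS => mul_nonneg (wt_nonneg h0 h1 _ _) (hF S (mem_powerset.1 hS)))
    (empty_mem_powerset E)

lemma Ex_ge_full (h0 : 0 ≤ p) (h1 : p ≤ 1) (E : Finset ι) {F : Finset ι → ℝ}
    (hF : ∀ S, S ⊆ E → 0 ≤ F S) : p ^ E.card * F E ≤ Ex p E F := by
  have : wt p E E = p ^ E.card := by
    unfold wt; rw [Finset.prod_congr rfl (fun e he => if_pos he)]; simp
  rw [← this]
  exact Finset.single_le_sum (f := fun S => wt p E S * F S)
    (fun S hS => mul_nonneg (wt_nonneg h0 h1 _ _) (hF S (mem_powerset.1 hS)))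
    (mem_powerset_self E)

lemma Ex_all_open (A : Finset ι) : Ex p A (fun S => ind (A ⊆ S)) = p ^ A.card := by
  unfold Ex
  rw [Finset.sum_eq_single A]
  · beta_reduce
    rw [ind_true subset_rfl, mul_one]
    unfold wt; rw [Finset.prod_congr rfl (fun e he => if_pos he)]; simp
  · intro S hS hne
    beta_reduce
    rw [ind_false (fun h => hne (Finset.Subset.antisymm (mem_powerset.1 hS) h)), mul_zero]
  · intro h; exact absurd (mem_powerset_self A) h

lemma Ex_open {A E : Finset ι} (h : A ⊆ E) : Ex p E (fun S => ind (A ⊆ S)) = p ^ A.card := by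
  rw [← Ex_all_open, ← Ex_restrict h]
  exact Ex_congr fun S _ => ind_congr (by simp [subset_inter_iff])

lemma Ex_closed (h0 : 0 ≤ p) (h1 : p ≤ 1) {A E : Finset ι} (h : A ⊆ E) :
    (1 - p) ^ A.card ≤ Ex p E (fun S => ind (Disjoint S A)) := by
  have e : Ex p E (fun S => ind (Disjoint S A)) = Ex p A (fun S => ind (S = ∅)) := by
    rw [← Ex_restrict h]
    exact Ex_congr fun S _ => ind_congr (by rw [Finset.disjoint_iff_inter_eq_empty])
  rw [e]
  have := Ex_ge_empty h0 h1 A (F := fun S => ind (S = ∅)) (fun S _ => ind_nonneg _)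
  rwa [ind_true rfl, mul_one] at this

lemma Ex_map {κ : Type*} [DecidableEq κ] (f : ι ↪ κ) (E : Finset ι) (F : Finset κ → ℝ) :
    Ex p (E.map f) F = Ex p E (fun S => F (S.map f)) := by
  induction E using Finset.induction_on generalizing F with
  | empty => simp [Ex_empty]
  | insert e E he ih =>
    have he' : f e ∉ E.map f := by simpa using he
    rw [Finset.map_insert, Ex_insert he', Ex_insert he, ih, ih]
    simp_rw [Finset.map_insert]

lemma continuous_Ex (E : Finset ι) (F : Finset ι → ℝ) : Continuous fun q : ℝ => Ex q E F := by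
  unfold Ex wt
  refine continuous_finsetSum _ fun S _ => Continuous.mul ?_ continuous_const
  refine continuous_finsetProd _ fun e _ => ?_
  split_ifs
  · exact continuous_id
  · exact continuous_const.sub continuous_id

open Classical in
noncomputable def mix (A : Set ι) (S S' : Finset ι) : Finset ι :=
  S.filter (· ∈ A) ∪ S'.filter (· ∉ A)

lemma mem_mix {A : Set ι} {S S' : Finset ι} {e : ι} :
    e ∈ mix A S S' ↔ (e ∈ S ∧ e ∈ A) ∨ (e ∈ S' ∧ e ∉ A) := by
  simp [mix]

lemma mix_mix (A : Set ι) (S S' : Finset ι) : mix A (mix A S S') (mix A S' S) = S := by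
  ext e; simp only [mem_mix]; by_cases h : e ∈ A <;> simp [h]

lemma mix_subset {A : Set ι} {S S' E : Finset ι} (h : S ⊆ E) (h' : S' ⊆ E) : mix A S S' ⊆ E := by
  intro e he
  rcases mem_mix.1 he with ⟨h1, _⟩ | ⟨h1, _⟩
  · exact h h1
  · exact h' h1

lemma wt_mix (A : Set ι) (E S S' : Finset ι) :
    wt p E (mix A S S') * wt p E (mix A S' S) = wt p E S * wt p E S' := by
  unfold wt
  rw [← Finset.prod_mul_distrib, ← Finset.prod_mul_distrib]
  refine Finset.prod_congr rfl fun e _ => ?_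
  by_cases h : e ∈ A
  · simp [mem_mix, h]
  · simp only [mem_mix, h, and_false, not_false_eq_true, and_true, false_or]; ring

lemma Ex_swap (E : Finset ι) (τ : Finset ι → Set ι)
    (hτ : ∀ S S', τ (mix (τ S) S S') = τ S) (G : Finset ι → ℝ) :
    Ex p E G = Ex p E (fun S => Ex p E (fun S' => G (mix (τ S) S S'))) := by
  have e1 : Ex p E G = Ex p E (fun S => Ex p E (fun _ => G S)) :=
    Ex_congr fun S _ => (Ex_const _ _).symm
  rw [e1]
  unfold Ex
  simp_rw [Finset.mul_sum]
  rw [← Finset.sum_product', ← Finset.sum_product']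
  symm
  refine Finset.sum_nbij' (fun x => (mix (τ x.1) x.1 x.2, mix (τ x.1) x.2 x.1))
    (fun x => (mix (τ x.1) x.1 x.2, mix (τ x.1) x.2 x.1)) ?_ ?_ ?_ ?_ ?_
  · rintro ⟨S, S'⟩ h
    simp only [mem_product, mem_powerset] at h ⊢
    exact ⟨mix_subset h.1 h.2, mix_subset h.2 h.1⟩
  · rintro ⟨S, S'⟩ h
    simp only [mem_product, mem_powerset] at h ⊢
    exact ⟨mix_subset h.1 h.2, mix_subset h.2 h.1⟩
  · rintro ⟨S, S'⟩ _
    simp only [hτ, mix_mix]
  · rintro ⟨S, S'⟩ _
    simp only [hτ, mix_mix]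
  · rintro ⟨S, S'⟩ _
    simp only
    rw [← mul_assoc, ← mul_assoc, wt_mix]

end Vale.Agent.P151
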