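import Vale.Agent.P151.Cluster

set_option linter.unusedSectionVars false

namespace Vale.Agent.P151

open Finset

variable {V : Type*} [DecidableEq V]

section
variable (p : ℝ) (E B : Finset (Sym2 V)) (o : V)

noncomputable def G1 : List V → Set V → Set V → ℝ
  | [], _, C => ind (o ∈ C)
  | z :: zs, Y, C => G1 zs (insert z Y) C -
      (Ex p E (fun S => G1 zs (insert z Y) (cl (B ∪ S) {z}) * ind (z ∉ cl (B ∪ S) Y)) /
        Ex p E (fun S => ind (z ∉ cl (B ∪ S) Y))) * ind (z ∈ C)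

noncomputable def phi (z : V) (zs : List V) (Y : Set V) : ℝ :=
  Ex p E (fun S => G1 p E B o zs (insert z Y) (cl (B ∪ S) {z}) * ind (z ∉ cl (B ∪ S) Y)) /
    Ex p E (fun S => ind (z ∉ cl (B ∪ S) Y))

noncomputable def Gw (h : V → ℝ) : List V → Set V → Set V → ℝ
  | [], _, C => h o * ind (o ∈ C)
  | z :: zs, Y, C => Gw h zs (insert z Y) C - phi p E B o z zs Y * (h z * ind (z ∈ C))

noncomputable def Fr (f : Set V → ℝ) (y : V) (T : Set V) : ℝ :=
  Ex p E (fun S' => f (cl (B ∪ rm T S') {y}))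

noncomputable def Uf (f : Set V → ℝ) (X : Set V) (y : V) (S : Finset (Sym2 V)) : ℝ :=
  (f (cl (B ∪ S) {y}) - Fr p E B f y (cl (B ∪ S) X)) * ind (y ∉ cl (B ∪ S) X)

noncomputable def uf (f : Set V → ℝ) (X : Set V) (y : V) (T : Set V) : ℝ :=
  Ex p E (fun S' => (Fr p E B f y (cl (B ∪ rm T S') X) - f (cl (B ∪ rm T S') {y})) *
    ind (y ∉ cl (B ∪ rm T S') X))

noncomputable def Pf (f : Set V → ℝ) (X : Set V) (y : V) (T : Set V) : ℝ :=
  Ex p E (fun S' => Fr p E B f y (cl (B ∪ rm T S') X))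

end

variable {p : ℝ} {E B : Finset (Sym2 V)} {o : V}

lemma G1_cons (z : V) (zs : List V) (Y C : Set V) :
    G1 p E B o (z :: zs) Y C = G1 p E B o zs (insert z Y) C - phi p E B o z zs Y * ind (z ∈ C) :=
  rfl

lemma ind_union {C1 C2 : Set V} (h : Disjoint C1 C2) (v : V) :
    ind (v ∈ C1 ∪ C2) = ind (v ∈ C1) + ind (v ∈ C2) := by
  by_cases h1 : v ∈ C1
  · have h2 : v ∉ C2 := Set.disjoint_left.1 h h1
    rw [ind_true (P := v ∈ C1 ∪ C2) (Or.inl h1), ind_true h1, ind_false h2, add_zero]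
  · rw [ind_false h1, zero_add]; exact ind_congr (by simp [h1])

lemma Gw_union (h : V → ℝ) (zs : List V) (Y : Set V) {C1 C2 : Set V} (hd : Disjoint C1 C2) :
    Gw p E B o h zs Y (C1 ∪ C2) = Gw p E B o h zs Y C1 + Gw p E B o h zs Y C2 := by
  induction zs generalizing Y with
  | nil => simp only [Gw, ind_union hd]; ring
  | cons z zs ih => simp only [Gw, ind_union hd, ih]; ring

lemma Gw_const (h : V → ℝ) (zs : List V) (Y : Set V) {C : Set V} {c : ℝ} (hc : ∀ v ∈ C, h v = c) :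
    Gw p E B o h zs Y C = c * G1 p E B o zs Y C := by
  have key : ∀ v, h v * ind (v ∈ C) = c * ind (v ∈ C) := fun v => by
    by_cases hv : v ∈ C
    · rw [hc v hv]
    · rw [ind_false hv]; ring
  induction zs generalizing Y with
  | nil => simp only [Gw, G1, key]
  | cons z zs ih => simp only [Gw, G1_cons, key, ih]; ring

lemma G1_union (zs : List V) (Y : Set V) {C1 C2 : Set V} (hd : Disjoint C1 C2) :
    G1 p E B o zs Y (C1 ∪ C2) = G1 p E B o zs Y C1 + G1 p E B o zs Y C2 := by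
  have := Gw_union (p := p) (E := E) (B := B) (o := o) (fun _ => 1) zs Y hd
  rw [Gw_const _ _ _ (c := 1) (fun _ _ => rfl), Gw_const _ _ _ (c := 1) (fun _ _ => rfl),
    Gw_const _ _ _ (c := 1) (fun _ _ => rfl)] at this
  linarith

lemma Gw_empty (h : V → ℝ) (zs : List V) (Y : Set V) : Gw p E B o h zs Y ∅ = 0 := by
  rw [Gw_const h zs Y (c := 0) (fun _ hv => absurd hv (Set.notMem_empty _)), zero_mul]

lemma phi_zero {z : V} {zs : List V} {Y : Set V} (h : z ∈ cl B Y) : phi p E B o z zs Y = 0 := by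
  unfold phi
  have : Ex p E (fun S => ind (z ∉ cl (B ∪ S) Y)) = 0 := by
    rw [← Ex_const (p := p) E 0]
    exact Ex_congr fun S _ => ind_false (not_not.2 (cl_mono subset_union_left subset_rfl h))
  rw [this, div_zero]

lemma G1_base (zs : List V) (Y : Set V) {C : Set V} (hC : C ⊆ cl B Y) :
    G1 p E B o zs Y C = ind (o ∈ C) := by
  induction zs generalizing Y with
  | nil => rfl
  | cons z zs ih =>
    rw [G1_cons, ih _ (hC.trans (cl_mono subset_rfl (Set.subset_insert _ _)))]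
    by_cases hz : z ∈ C
    · rw [phi_zero (hC hz)]; ring
    · rw [ind_false hz]; ring

lemma D_pos (h0 : 0 ≤ p) (h1 : p < 1) {z : V} {Y : Set V} (h : z ∉ cl B Y) :
    0 < Ex p E (fun S => ind (z ∉ cl (B ∪ S) Y)) := by
  have := Ex_ge_empty h0 h1.le E (F := fun S => ind (z ∉ cl (B ∪ S) Y))
    (fun _ _ => ind_nonneg _)
  simp only [union_empty] at this
  rw [ind_true h, mul_one] at this
  exact lt_of_lt_of_le (pow_pos (sub_pos.2 h1) _) this

lemma mean_zero (h0 : 0 ≤ p) (h1 : p < 1) (z : V) (zs : List V) (Y : Set V) :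
    Ex p E (fun S => (G1 p E B o zs (insert z Y) (cl (B ∪ S) {z}) - phi p E B o z zs Y) *
      ind (z ∉ cl (B ∪ S) Y)) = 0 := by
  by_cases h : z ∈ cl B Y
  · rw [← Ex_const (p := p) E 0]
    refine Ex_congr fun S _ => ?_
    rw [ind_false (not_not.2 (cl_mono subset_union_left subset_rfl h)), mul_zero]
  · have hp := D_pos (E := E) h0 h1 h
    simp_rw [sub_mul]
    rw [Ex_sub, Ex_mul_left]
    unfold phi
    field_simp
    ring

/- conditional mean zero -/
lemma Uf_zero (f : Set V → ℝ) (X : Set V) (y : V) (Ψ : Set V → ℝ) :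
    Ex p E (fun S => Uf p E B f X y S * Ψ (cl (B ∪ S) X)) = 0 := by
  rw [markov' (B := B) X
    (fun T R => (f (cl (B ∪ R) {y}) - Fr p E B f y T) * (ind (y ∉ T) * Ψ T)) (fun S => by
    by_cases hy : y ∈ cl (B ∪ S) X
    · simp only [Uf, ind_false (not_not.2 hy)]; ring
    · simp only [Uf]
      rw [cl_rm (cl_closed _ _) (Set.disjoint_singleton_right.2 hy)]; ring),
    ← Ex_const (p := p) E 0]
  refine Ex_congr fun S _ => ?_
  rw [Ex_mul_right, Ex_sub, Ex_const]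
  simp [Fr]

lemma Q_base (h0 : 0 ≤ p) (h1 : p ≤ 1) {f : Set V → ℝ} (hf : Monotone f) (X : Set V) (y : V)
    (Y : Set V) :
    0 ≤ Ex p E (fun S => Uf p E B f X y S * ind (o ∈ cl (B ∪ S) Y \ cl (B ∪ S) X)) := by
  rw [markov' (B := B) X (fun T R => (f (cl (B ∪ R) {y}) - Fr p E B f y T) *
        ind (o ∈ cl (B ∪ R) (Y \ T)) * ind (y ∉ T)) (fun S => by
    by_cases hy : y ∈ cl (B ∪ S) X
    · simp only [Uf, ind_false (not_not.2 hy)]; ring
    · simp only [Uf]
      rw [cl_rm (cl_closed _ _) (Set.disjoint_singleton_right.2 hy), cl_diff (cl_closed _ _)]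
      ring)]
  refine Ex_nonneg h0 h1 fun S _ => ?_
  rw [Ex_mul_right]
  refine mul_nonneg ?_ (ind_nonneg _)
  generalize cl (B ∪ S) X = T
  simp_rw [sub_mul]
  rw [Ex_sub, Ex_mul_left]
  have := harris h0 h1 E (F := fun S' => f (cl (B ∪ rm T S') {y}))
    (G := fun S' => ind (o ∈ cl (B ∪ rm T S') (Y \ T)))
    (fun S1 S2 h => hf (cl_mono (union_subset_union subset_rfl (rm_mono subset_rfl h)) subset_rfl))
    (fun S1 S2 h => ind_mono fun hh =>
      cl_mono (union_subset_union subset_rfl (rm_mono subset_rfl h)) subset_rfl hh)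
  unfold Fr
  linarith

lemma Uf_uf (f : Set V → ℝ) {X Y : Set V} {y : V} (hX : X ⊆ Y) (hy : y ∈ Y) (z : V)
    (H : Set V → ℝ) :
    Ex p E (fun S => Uf p E B f X y S * (H (cl (B ∪ S) {z}) * ind (z ∉ cl (B ∪ S) Y))) =
      - Ex p E (fun S => uf p E B f X y (cl (B ∪ S) {z}) * H (cl (B ∪ S) {z}) *
        ind (z ∉ cl (B ∪ S) Y)) := by
  rw [markov' (B := B) {z} (fun T R => ((Fr p E B f y (cl (B ∪ R) X) - f (cl (B ∪ R) {y})) *
        ind (y ∉ cl (B ∪ R) X)) * (- (H T * ind (Disjoint T Y)))) (fun S => by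
    rw [ind_congr not_mem_cl_iff]
    by_cases hd : Disjoint (cl (B ∪ S) {z}) Y
    · simp only [Uf]
      rw [cl_rm (cl_closed _ _) (hd.mono_right hX),
        cl_rm (cl_closed _ _) (hd.mono_right (Set.singleton_subset_iff.2 hy))]
      ring
    · simp only [ind_false hd]; ring), neg_eq_neg_one_mul (Ex _ _ _), ← Ex_mul_left]
  refine Ex_congr fun S _ => ?_
  rw [Ex_mul_right, ind_congr not_mem_cl_iff]
  unfold uf
  ring

lemma uf_eq (f : Set V → ℝ) (X : Set V) (y : V) (T : Set V) :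
    uf p E B f X y T = Ex p E (fun S => (f (cl (B ∪ rm (cl (B ∪ rm T S) X) S) {y}) -
      f (cl (B ∪ rm T S) {y})) * ind (y ∉ cl (B ∪ rm T S) X)) := by
  unfold uf
  simp_rw [sub_mul]
  rw [Ex_sub, Ex_sub]
  congr 1
  have := markov_gen (p := p) E (fun S => cl (B ∪ rm T S) X) (stop_rm B T X)
    (fun K R => f (cl (B ∪ R) {y}) * ind (y ∉ K))
  rw [this]
  refine Ex_congr fun S _ => ?_
  rw [Ex_mul_right]
  rfl

lemma cl_rm_le {T X : Set V} {y : V} {S : Finset (Sym2 V)} (hy : y ∉ cl (B ∪ rm T S) X) :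
    cl (B ∪ rm T S) {y} ⊆ cl (B ∪ rm (cl (B ∪ rm T S) X) S) {y} := by
  rw [← cl_rm (cl_closed (B ∪ rm T S) X) (Set.disjoint_singleton_right.2 hy)]
  exact cl_mono (union_subset_union subset_rfl (rm_mono subset_rfl (rm_subset _ _))) subset_rfl

lemma uf_mono (h0 : 0 ≤ p) (h1 : p ≤ 1) {f : Set V → ℝ} (hf : Monotone f) (X : Set V) (y : V) :
    Monotone (uf p E B f X y) := by
  intro T T' hT
  rw [uf_eq, uf_eq]
  refine Ex_mono h0 h1 fun S _ => ?_
  have s1 : B ∪ rm T' S ⊆ B ∪ rm T S := union_subset_union subset_rfl (rm_mono hT subset_rfl)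
  have s2 : cl (B ∪ rm T' S) X ⊆ cl (B ∪ rm T S) X := cl_mono s1 subset_rfl
  by_cases hy : y ∈ cl (B ∪ rm T S) X
  · rw [ind_false (not_not.2 hy), mul_zero]
    by_cases hy' : y ∈ cl (B ∪ rm T' S) X
    · rw [ind_false (not_not.2 hy'), mul_zero]
    · exact mul_nonneg (sub_nonneg.2 (hf (cl_rm_le hy'))) (ind_nonneg _)
  · have hy' : y ∉ cl (B ∪ rm T' S) X := fun h => hy (s2 h)
    rw [ind_true hy, ind_true hy', mul_one, mul_one]
    have a1 := hf (cl_mono (X := {y}) s1 subset_rfl)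
    have a2 := hf (cl_mono (X := {y}) (union_subset_union (subset_rfl (a := B))
      (rm_mono s2 (subset_rfl (a := S)))) subset_rfl)
    linarith

lemma uf_bound (h0 : 0 ≤ p) (h1 : p ≤ 1) {f : Set V → ℝ} (hf : Monotone f) {b : ℝ}
    (hb : ∀ C, 0 ≤ f C ∧ f C ≤ b) (X : Set V) (y : V) (T : Set V) :
    0 ≤ uf p E B f X y T ∧ uf p E B f X y T ≤ b := by
  rw [uf_eq]
  constructor
  · refine Ex_nonneg h0 h1 fun S _ => ?_
    by_cases hy : y ∈ cl (B ∪ rm T S) X
    · rw [ind_false (not_not.2 hy), mul_zero]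
    · exact mul_nonneg (sub_nonneg.2 (hf (cl_rm_le hy))) (ind_nonneg _)
  · refine Ex_le h0 h1 fun S _ => ?_
    by_cases hy : y ∈ cl (B ∪ rm T S) X
    · rw [ind_false (not_not.2 hy), mul_zero]; exact (hb ∅).1.trans (hb ∅).2
    · rw [ind_true hy, mul_one]
      linarith [(hb (cl (B ∪ rm (cl (B ∪ rm T S) X) S) {y})).2, (hb (cl (B ∪ rm T S) {y})).1]

lemma Fr_anti (h0 : 0 ≤ p) (h1 : p ≤ 1) {f : Set V → ℝ} (hf : Monotone f) (y : V) :
    Antitone (Fr p E B f y) := fun _ _ hT =>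
  Ex_mono h0 h1 fun _ _ =>
    hf (cl_mono (union_subset_union subset_rfl (rm_mono hT subset_rfl)) subset_rfl)

lemma Pf_mono (h0 : 0 ≤ p) (h1 : p ≤ 1) {f : Set V → ℝ} (hf : Monotone f) (X : Set V) (y : V) :
    Monotone (Pf p E B f X y) := fun _ _ hT =>
  Ex_mono h0 h1 fun _ _ => Fr_anti h0 h1 hf y
    (cl_mono (union_subset_union subset_rfl (rm_mono hT subset_rfl)) subset_rfl)

lemma Pf_bound (h0 : 0 ≤ p) (h1 : p ≤ 1) {f : Set V → ℝ} {b : ℝ}
    (hb : ∀ C, 0 ≤ f C ∧ f C ≤ b) (X : Set V) (y : V) (T : Set V) :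
    0 ≤ Pf p E B f X y T - (1 - p) ^ E.card * Fr p E B f y (cl B X) ∧
      Pf p E B f X y T - (1 - p) ^ E.card * Fr p E B f y (cl B X) ≤
        (1 - (1 - p) ^ E.card) * b := by
  have b1 : ∀ K, 0 ≤ Fr p E B f y K := fun K => Ex_nonneg h0 h1 fun _ _ => (hb _).1
  have b2 : ∀ K, Fr p E B f y K ≤ b := fun K => Ex_le h0 h1 fun _ _ => (hb _).2
  have i1 := Ex_ge_empty h0 h1 E (F := fun S' => Fr p E B f y (cl (B ∪ rm T S') X))
    (fun _ _ => b1 _)
  have i2 := Ex_ge_empty h0 h1 E (F := fun S' => b - Fr p E B f y (cl (B ∪ rm T S') X))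
    (fun _ _ => sub_nonneg.2 (b2 _))
  rw [Ex_sub, Ex_const] at i2
  simp only [rm_empty, union_empty] at i1 i2
  unfold Pf
  constructor <;> linarith

lemma Fr_Pf (f : Set V → ℝ) (X : Set V) (y : V) (H : Set V → ℝ) :
    Ex p E (fun S => Fr p E B f y (cl (B ∪ S) X) * H (cl (B ∪ S) {y}) * ind (y ∉ cl (B ∪ S) X)) =
      Ex p E (fun S => Pf p E B f X y (cl (B ∪ S) {y}) * H (cl (B ∪ S) {y}) *
        ind (y ∉ cl (B ∪ S) X)) := by
  rw [markov' (B := B) {y}
    (fun T R => Fr p E B f y (cl (B ∪ R) X) * (H T * ind (Disjoint T X))) (fun S => by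
    rw [ind_congr not_mem_cl_iff]
    by_cases hd : Disjoint (cl (B ∪ S) {y}) X
    · rw [cl_rm (cl_closed _ _) hd]
      ring
    · simp only [ind_false hd]; ring)]
  refine Ex_congr fun S _ => ?_
  rw [Ex_mul_right, ind_congr not_mem_cl_iff]
  unfold Pf
  ring

end Vale.Agent.P151
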