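import Vale.Agent.P151.Glue

set_option linter.unusedSectionVars false

namespace Vale.Agent.P151

open Finset

variable {V : Type*} [DecidableEq V]

def QQ (p : ℝ) (E B : Finset (Sym2 V)) (o : V) (zs : List V) : Prop :=
  ∀ (X : Set V) (y : V) (Y : Set V) (f : Set V → ℝ) (b : ℝ), X ⊆ Y → y ∈ Y → Monotone f →
    (∀ C, 0 ≤ f C ∧ f C ≤ b) →
    0 ≤ Ex p E (fun S => Uf p E B f X y S * G1 p E B o zs Y (cl (B ∪ S) Y \ cl (B ∪ S) X))

def SS (p : ℝ) (E B : Finset (Sym2 V)) (o : V) (zs : List V) : Prop :=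
  ∀ (X : Set V) (y : V) (f : Set V → ℝ) (b : ℝ), Monotone f → (∀ C, 0 ≤ f C ∧ f C ≤ b) →
    0 ≤ Ex p E (fun S => f (cl (B ∪ S) {y}) *
      (G1 p E B o zs (insert y X) (cl (B ∪ S) {y}) - phi p E B o y zs X) *
        ind (y ∉ cl (B ∪ S) X))

variable {p : ℝ} {E B : Finset (Sym2 V)} {o : V}

lemma SS_step {zs : List V} (hQ : QQ p E B o zs) (X : Set V) (y : V) {f : Set V → ℝ} {b : ℝ} (hf : Monotone f)
    (hb : ∀ C, 0 ≤ f C ∧ f C ≤ b) :
    Ex p E (fun S => Pf p E B f X y (cl (B ∪ S) {y}) *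
      (G1 p E B o zs (insert y X) (cl (B ∪ S) {y}) - phi p E B o y zs X) *
        ind (y ∉ cl (B ∪ S) X)) ≤
    Ex p E (fun S => f (cl (B ∪ S) {y}) *
      (G1 p E B o zs (insert y X) (cl (B ∪ S) {y}) - phi p E B o y zs X) *
        ind (y ∉ cl (B ∪ S) X)) := by
  have h1 := hQ X y (insert y X) f b (Set.subset_insert _ _) (Set.mem_insert _ _) hf hb
  have h2 := Uf_zero (p := p) (E := E) (B := B) f X y (fun _ => phi p E B o y zs X)
  rw [← Fr_Pf f X y (fun C => G1 p E B o zs (insert y X) C - phi p E B o y zs X)]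
  rw [← sub_nonneg, ← Ex_sub]
  have h3 := sub_nonneg.2 (h2.le.trans h1)
  rw [← Ex_sub] at h3
  refine h3.trans (le_of_eq (Ex_congr fun S _ => ?_))
  by_cases hy : y ∈ cl (B ∪ S) X
  · simp only [Uf, ind_false (not_not.2 hy)]; ring
  · have : cl (B ∪ S) (insert y X) \ cl (B ∪ S) X = cl (B ∪ S) {y} := by
      rw [cl_insert, Set.union_diff_right, (disjoint_cl hy).sdiff_eq_left]
    simp only [Uf, this]; ring

lemma SS_of_QQ (h0 : 0 ≤ p) (h1 : p < 1) {zs : List V} (hQ : QQ p E B o zs) : SS p E B o zs := by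
  intro X y
  set H : Set V → ℝ := fun C => G1 p E B o zs (insert y X) C - phi p E B o y zs X with hH
  set η : ℝ := (1 - p) ^ E.card with hη
  have η0 : 0 < η := pow_pos (sub_pos.2 h1) _
  have η1 : η ≤ 1 := pow_le_one₀ (sub_pos.2 h1).le (by linarith)
  set M : ℝ := Ex p E (fun S => |H (cl (B ∪ S) {y})|) with hM
  have mz : Ex p E (fun S => H (cl (B ∪ S) {y}) * ind (y ∉ cl (B ∪ S) X)) = 0 :=
    mean_zero h0 h1 y zs X
  have key : ∀ n : ℕ, ∀ (f : Set V → ℝ) (b : ℝ), Monotone f → (∀ C, 0 ≤ f C ∧ f C ≤ b) →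
      - (b * M * (1 - η) ^ n) ≤
        Ex p E (fun S => f (cl (B ∪ S) {y}) * H (cl (B ∪ S) {y}) * ind (y ∉ cl (B ∪ S) X)) := by
    intro n
    induction n with
    | zero =>
      intro f b _ hb
      rw [pow_zero, mul_one, hM, neg_mul_eq_neg_mul, ← Ex_mul_left]
      refine Ex_mono h0 h1.le fun S _ => ?_
      have a1 := (hb (cl (B ∪ S) {y})).1
      have a2 := (hb (cl (B ∪ S) {y})).2
      have a3 := neg_abs_le (H (cl (B ∪ S) {y}))
      have a4 := abs_nonneg (H (cl (B ∪ S) {y}))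
      by_cases hy : y ∈ cl (B ∪ S) X
      · rw [ind_false (not_not.2 hy), mul_zero]; nlinarith
      · rw [ind_true hy, mul_one]; nlinarith
    | succ n ih =>
      intro f b hf hb
      refine le_trans ?_ (SS_step hQ X y hf hb)
      have := ih (fun T => Pf p E B f X y T - η * Fr p E B f y (cl B X)) ((1 - η) * b)
        (fun T T' h => by have := Pf_mono (E := E) (B := B) h0 h1.le hf X y h; simp only; linarith)
        (fun T => Pf_bound h0 h1.le hb X y T)
      have e : Ex p E (fun S => (Pf p E B f X y (cl (B ∪ S) {y}) - η * Fr p E B f y (cl B X)) *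
          H (cl (B ∪ S) {y}) * ind (y ∉ cl (B ∪ S) X)) =
          Ex p E (fun S => Pf p E B f X y (cl (B ∪ S) {y}) * H (cl (B ∪ S) {y}) *
            ind (y ∉ cl (B ∪ S) X)) - η * Fr p E B f y (cl B X) *
            Ex p E (fun S => H (cl (B ∪ S) {y}) * ind (y ∉ cl (B ∪ S) X)) := by
        rw [← Ex_mul_left, ← Ex_sub]
        exact Ex_congr fun S _ => by ring
      rw [e, mz, mul_zero, sub_zero] at this
      refine le_trans (le_of_eq ?_) this
      ring
  intro f b hf hb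
  have lim : Filter.Tendsto (fun n : ℕ => - (b * M * (1 - η) ^ n)) Filter.atTop
      (nhds (- (b * M * 0))) :=
    ((tendsto_pow_atTop_nhds_zero_of_lt_one (by linarith) (by linarith)).const_mul _).neg
  rw [mul_zero, neg_zero] at lim
  exact le_of_tendsto' lim fun n => key n f b hf hb

lemma QQ_cons (h0 : 0 ≤ p) (h1 : p < 1) {z : V} {zs : List V} (hQ : QQ p E B o zs) :
    QQ p E B o (z :: zs) := by
  intro X y Y f b hX hy hf hb
  have hS := SS_of_QQ h0 h1 hQ Y z (uf p E B f X y) b (uf_mono h0 h1.le hf X y)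
    (uf_bound h0 h1.le hf hb X y)
  have i1 := hQ X y (insert z Y) f b (hX.trans (Set.subset_insert _ _)) (Or.inr hy) hf hb
  have i2 := Uf_uf (p := p) (E := E) (B := B) f hX hy z
    (fun C => G1 p E B o zs (insert z Y) C - phi p E B o z zs Y)
  have i3 := Uf_zero (p := p) (E := E) (B := B) f X y
    (fun T => phi p E B o z zs Y * ind (z ∉ T))
  have e : Ex p E (fun S => Uf p E B f X y S *
      G1 p E B o (z :: zs) Y (cl (B ∪ S) Y \ cl (B ∪ S) X)) =
      Ex p E (fun S => Uf p E B f X y S *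
        G1 p E B o zs (insert z Y) (cl (B ∪ S) (insert z Y) \ cl (B ∪ S) X)) -
      Ex p E (fun S => Uf p E B f X y S *
        ((G1 p E B o zs (insert z Y) (cl (B ∪ S) {z}) - phi p E B o z zs Y) *
          ind (z ∉ cl (B ∪ S) Y))) -
      Ex p E (fun S => Uf p E B f X y S * (phi p E B o z zs Y * ind (z ∉ cl (B ∪ S) X))) := by
    rw [← Ex_sub, ← Ex_sub]
    refine Ex_congr fun S _ => ?_
    rw [G1_cons, cl_insert]
    have sXY : cl (B ∪ S) X ⊆ cl (B ∪ S) Y := cl_mono subset_rfl hX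
    by_cases hz : z ∈ cl (B ∪ S) Y
    · rw [Set.union_eq_right.2 (cl_single_subset hz), ind_false (not_not.2 hz),
        ind_congr (show z ∈ cl (B ∪ S) Y \ cl (B ∪ S) X ↔ z ∉ cl (B ∪ S) X by simp [hz])]
      ring
    · have hd := disjoint_cl hz
      have : (cl (B ∪ S) {z} ∪ cl (B ∪ S) Y) \ cl (B ∪ S) X =
          cl (B ∪ S) {z} ∪ (cl (B ∪ S) Y \ cl (B ∪ S) X) := by
        rw [Set.union_diff_distrib, (hd.mono_right sXY).sdiff_eq_left]
      rw [this, G1_union _ _ (hd.mono_right Set.diff_subset), ind_true hz,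
        ind_false (fun h : z ∈ cl (B ∪ S) Y \ cl (B ∪ S) X => hz h.1),
        ind_true (fun h => hz (sXY h) : z ∉ cl (B ∪ S) X)]
      ring
  rw [e, i2, i3]
  linarith

lemma QQ_all (h0 : 0 ≤ p) (h1 : p < 1) (zs : List V) : QQ p E B o zs := by
  induction zs with
  | nil => exact fun X y Y f b _ _ hf _ => Q_base h0 h1.le hf X y Y
  | cons z zs ih => exact QQ_cons h0 h1 ih

lemma phi_nonneg (h0 : 0 ≤ p) (h1 : p < 1) (z : V) (zs : List V) (Y : Set V) :
    0 ≤ phi p E B o z zs Y := by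
  by_cases hz : z ∈ cl B Y
  · rw [phi_zero hz]
  have hS := SS_of_QQ h0 h1 (QQ_all (E := E) (B := B) (o := o) h0 h1 zs) Y z
    (fun C => ind (¬ C ⊆ cl B {z})) 1
    (fun C C' h => ind_mono fun h1 h2 => h1 (h.trans h2))
    (fun C => ⟨ind_nonneg _, ind_le_one _⟩)
  have mz := mean_zero (E := E) (B := B) (o := o) h0 h1 z zs Y
  by_contra hneg
  push Not at hneg
  have h3 : 0 ≤ - Ex p E (fun S => ind (cl (B ∪ S) {z} ⊆ cl B {z}) *
      (ind (o ∈ cl (B ∪ S) {z}) - phi p E B o z zs Y) * ind (z ∉ cl (B ∪ S) Y)) := by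
    have := sub_nonneg.2 (mz.le.trans hS)
    rw [← Ex_sub] at this
    rw [neg_eq_neg_one_mul, ← Ex_mul_left]
    refine this.trans (le_of_eq (Ex_congr fun S _ => ?_))
    by_cases hc : cl (B ∪ S) {z} ⊆ cl B {z}
    · rw [G1_base zs _ (hc.trans (cl_mono subset_rfl (by simp))), ind_true hc,
        ind_false (not_not.2 hc)]
      ring
    · rw [ind_true hc, ind_false hc]; ring
  have h4 := Ex_ge_empty h0 h1.le E (F := fun S => ind (cl (B ∪ S) {z} ⊆ cl B {z}) *
      (ind (o ∈ cl (B ∪ S) {z}) - phi p E B o z zs Y) * ind (z ∉ cl (B ∪ S) Y))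
    (fun S _ => mul_nonneg (mul_nonneg (ind_nonneg _)
      (by linarith [ind_nonneg (o ∈ cl (B ∪ S) {z})])) (ind_nonneg _))
  simp only [union_empty] at h4
  rw [ind_true subset_rfl, ind_true hz] at h4
  have h5 : 0 < (1 - p) ^ E.card * (1 * (ind (o ∈ cl B {z}) - phi p E B o z zs Y) * 1) :=
    mul_pos (pow_pos (sub_pos.2 h1) _) (by linarith [ind_nonneg (o ∈ cl B {z})])
  linarith

lemma N_all (h0 : 0 ≤ p) (h1 : p < 1) {f : Set V → ℝ} (hf : Monotone f)
    (hb : ∀ C, 0 ≤ f C ∧ f C ≤ 1) (m : ℝ) (zs : List V)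
    (hz : ∀ z ∈ zs, m ≤ Ex p E (fun S => f (cl (B ∪ S) {z}))) (Y : Set V) :
    Ex p E (fun S => Gw p E B o (fun v => f (cl (B ∪ S) {v}) - m) zs Y (cl (B ∪ S) Y)) ≤
      Ex p E (fun S => (f (cl (B ∪ S) {o}) - m) * ind (o ∈ cl (B ∪ S) (Y ∪ {z | z ∈ zs}))) := by
  induction zs generalizing Y with
  | nil => simp [Gw]
  | cons z zs ih =>
    have e0 : Y ∪ {w | w ∈ z :: zs} = insert z Y ∪ {w | w ∈ zs} := by
      ext w; simp; tauto
    rw [e0]
    refine le_trans ?_ (ih (fun w hw => hz w (List.mem_cons_of_mem _ hw)) (insert z Y))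
    have hS := SS_of_QQ h0 h1 (QQ_all (E := E) (B := B) (o := o) h0 h1 zs) Y z f 1 hf hb
    have mz := mean_zero (E := E) (B := B) (o := o) h0 h1 z zs Y
    have hφ := phi_nonneg (E := E) (B := B) (o := o) h0 h1 z zs Y
    have hm := hz z List.mem_cons_self
    have e : Ex p E (fun S => Gw p E B o (fun v => f (cl (B ∪ S) {v}) - m) zs (insert z Y)
        (cl (B ∪ S) (insert z Y))) =
        Ex p E (fun S => Gw p E B o (fun v => f (cl (B ∪ S) {v}) - m) (z :: zs) Y (cl (B ∪ S) Y))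
        + (Ex p E (fun S => f (cl (B ∪ S) {z}) *
          (G1 p E B o zs (insert z Y) (cl (B ∪ S) {z}) - phi p E B o z zs Y) *
            ind (z ∉ cl (B ∪ S) Y))
        - m * Ex p E (fun S => (G1 p E B o zs (insert z Y) (cl (B ∪ S) {z}) -
            phi p E B o z zs Y) * ind (z ∉ cl (B ∪ S) Y)))
        + phi p E B o z zs Y * (Ex p E (fun S => f (cl (B ∪ S) {z})) - m) := by
      rw [← Ex_const (p := p) E m, ← Ex_sub, Ex_const, ← Ex_mul_left, ← Ex_mul_left, ← Ex_sub,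
        ← Ex_add, ← Ex_add]
      refine Ex_congr fun S _ => ?_
      simp only [Gw]
      rw [cl_insert]
      by_cases hz : z ∈ cl (B ∪ S) Y
      · rw [Set.union_eq_right.2 (cl_single_subset hz), ind_false (not_not.2 hz), ind_true hz]
        ring
      · rw [Gw_union _ _ _ (disjoint_cl hz), ind_true hz, ind_false hz,
          Gw_const _ zs _ (c := f (cl (B ∪ S) {z}) - m) (fun v hv => by rw [cl_single_eq hv])]
        ring
    rw [e, mz]
    have := mul_nonneg hφ (sub_nonneg.2 hm)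
    linarith

/-- The gluing inequality. -/
theorem glue (h0 : 0 ≤ p) (h1 : p < 1) (A : Finset V) (T : Set V) {κ : ℝ} (hκ : 0 ≤ κ)
    (hA : ∀ a ∈ A, Ex p E (fun S => ind (¬ ∃ t ∈ T, conn (B ∪ S) a t)) ≤ κ) :
    Ex p E (fun S => ind ((∃ a ∈ A, conn (B ∪ S) o a) ∧ ¬ ∃ t ∈ T, conn (B ∪ S) o t)) ≤ κ := by
  have h := N_all (E := E) (B := B) (o := o) h0 h1 (f := fun C => ind (∃ t ∈ T, t ∈ C))
    (fun C C' h => ind_mono fun ⟨t, h1, h2⟩ => ⟨t, h1, h h2⟩)
    (fun C => ⟨ind_nonneg _, ind_le_one _⟩) (1 - κ) A.toList (fun z hz => by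
      have := hA z (Finset.mem_toList.1 hz)
      rw [Ex_ind_not] at this
      simp only [mem_cl_single]
      linarith) ∅
  simp only [cl_empty, Gw_empty, Ex_const, mem_cl_single] at h
  have e : Ex p E (fun S => ind ((∃ a ∈ A, conn (B ∪ S) o a) ∧ ¬ ∃ t ∈ T, conn (B ∪ S) o t)) =
      κ * Ex p E (fun S => ind (∃ a ∈ A, conn (B ∪ S) o a)) -
      Ex p E (fun S => (ind (∃ t ∈ T, conn (B ∪ S) o t) - (1 - κ)) *
        ind (o ∈ cl (B ∪ S) (∅ ∪ {z | z ∈ A.toList}))) := by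
    rw [← Ex_mul_left, ← Ex_sub]
    refine Ex_congr fun S _ => ?_
    have : o ∈ cl (B ∪ S) (∅ ∪ {z | z ∈ A.toList}) ↔ ∃ a ∈ A, conn (B ∪ S) o a := by
      simp only [cl, Set.empty_union, Set.mem_setOf_eq, Finset.mem_toList]
      exact ⟨fun ⟨a, h1, h2⟩ => ⟨a, h1, conn_symm h2⟩, fun ⟨a, h1, h2⟩ => ⟨a, h1, conn_symm h2⟩⟩
    rw [ind_congr this, ind_and, ind_not]
    ring
  rw [e]
  have := Ex_le h0 h1.le (E := E) (F := fun S => ind (∃ a ∈ A, conn (B ∪ S) o a)) (c := 1)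
    (fun _ _ => ind_le_one _)
  nlinarith

end Vale.Agent.P151
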