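import Vale.Agent.P151.Target2
import Vale.Agent.P151.Defs

namespace Vale.Agent.P151

open Finset

variable {d : ℕ} {p : ℝ}

abbrev Pt (d : ℕ) := Fin d → ℤ

lemma lat_adj {x y : Pt d} : (lattice d).Adj x y ↔ ∑ i, |x i - y i| = 1 := Iff.rfl

lemma adj_le {x y : Pt d} (h : (lattice d).Adj x y) (l : Fin d) : |x l - y l| ≤ 1 := by
  rw [← lat_adj.1 h]
  exact Finset.single_le_sum (f := fun i => |x i - y i|) (fun _ _ => abs_nonneg _) (mem_univ l)

lemma adj_update (x : Pt d) (l : Fin d) (s : ℤ) (hs : |s| = 1) :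
    (lattice d).Adj x (Function.update x l (x l + s)) := by
  rw [lat_adj, Finset.sum_eq_single l]
  · simp [hs]
  · intro b _ hb; simp [hb]
  · simp

noncomputable def box (c w : Pt d) : Finset (Pt d) := Fintype.piFinset fun l => Icc (c l - w l) (c l + w l)

lemma mem_box {c w x : Pt d} : x ∈ box c w ↔ ∀ l, |x l - c l| ≤ w l := by
  simp only [box, Fintype.mem_piFinset, mem_Icc, abs_le]
  exact forall_congr' fun l => by constructor <;> rintro ⟨h1, h2⟩ <;> constructor <;> linarith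

noncomputable def cube (c : Pt d) (r : ℤ) : Finset (Pt d) := box c fun _ => r

lemma mem_cube {c x : Pt d} {r : ℤ} : x ∈ cube c r ↔ ∀ l, |x l - c l| ≤ r := mem_box

open Classical in
noncomputable def latE (D : Finset (Pt d)) : Finset (Sym2 (Pt d)) :=
  D.sym2.filter (· ∈ (lattice d).edgeSet)

lemma mem_latE {D : Finset (Pt d)} {e : Sym2 (Pt d)} :
    e ∈ latE D ↔ (∀ v ∈ e, v ∈ D) ∧ e ∈ (lattice d).edgeSet := by
  simp [latE, Finset.mem_sym2_iff]

lemma mk_mem_latE {D : Finset (Pt d)} {x y : Pt d} :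
    s(x, y) ∈ latE D ↔ x ∈ D ∧ y ∈ D ∧ (lattice d).Adj x y := by
  simp [mem_latE, and_assoc]

lemma latE_mono {D D' : Finset (Pt d)} (h : D ⊆ D') : latE D ⊆ latE D' := fun _ he =>
  mem_latE.2 ⟨fun v hv => h ((mem_latE.1 he).1 v hv), (mem_latE.1 he).2⟩

lemma deg_le {E : Finset (Sym2 (Pt d))} (hE : ∀ e ∈ E, e ∈ (lattice d).edgeSet) (x : Pt d) :
    (E.filter (fun e => x ∈ e)).card ≤ 3 ^ d := by
  have : (cube x 1).card = 3 ^ d := by
    simp only [cube, box, Fintype.card_piFinset, Int.card_Icc]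
    rw [Finset.prod_congr rfl (g := fun _ => 3) (fun i _ => by omega)]
    simp
  rw [← this]
  refine le_trans (card_le_card (t := (cube x 1).image fun y => s(x, y)) ?_) card_image_le
  intro e he
  obtain ⟨h1, h2⟩ := mem_filter.1 he
  obtain ⟨y, rfl⟩ := Sym2.mem_iff_exists.1 h2
  refine mem_image.2 ⟨y, mem_cube.2 fun l => ?_, rfl⟩
  rw [abs_sub_comm]
  exact adj_le (hE _ h1) l

lemma cube_conn (a : Pt d) (m : ℤ) {x v : Pt d} (hx : x ∈ cube a m) (hv : v ∈ cube a m) :
    conn (latE (cube a m)) x v := by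
  generalize hn : (∑ i, |x i - v i|).toNat = n
  induction n using Nat.strong_induction_on generalizing x with
  | h n ih =>
    by_cases hxv : x = v
    · rw [hxv]; exact conn_refl _ _
    obtain ⟨l, hl⟩ := Function.ne_iff.1 hxv
    set s : ℤ := if x l < v l then 1 else -1 with hs
    have hs1 : |s| = 1 := by rw [hs]; split_ifs <;> simp
    have hx' : Function.update x l (x l + s) ∈ cube a m := by
      rw [mem_cube] at hx hv ⊢
      intro i
      by_cases hi : i = l
      · subst hi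
        have b1 := abs_le.1 (hx i)
        have b2 := abs_le.1 (hv i)
        rw [Function.update_self, abs_le, hs]
        split_ifs <;> constructor <;> omega
      · rw [Function.update_of_ne hi]; exact hx i
    have hlt : ∑ i, |Function.update x l (x l + s) i - v i| < ∑ i, |x i - v i| := by
      refine Finset.sum_lt_sum (fun i _ => ?_) ⟨l, mem_univ _, ?_⟩
      · by_cases hi : i = l
        · subst hi
          rw [Function.update_self, hs]
          split_ifs <;> simp only [abs_eq_max_neg] <;> omega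
        · rw [Function.update_of_ne hi]
      · rw [Function.update_self, hs]
        split_ifs <;> simp only [abs_eq_max_neg] <;> omega
    have h0 : 0 ≤ ∑ i, |Function.update x l (x l + s) i - v i| :=
      Finset.sum_nonneg fun _ _ => abs_nonneg _
    exact conn_trans (conn_edge (mk_mem_latE.2 ⟨hx, hx', adj_update x l s hs1⟩))
      (ih _ (by omega) hx' rfl)

lemma exit_cube {S : Finset (Sym2 (Pt d))} (hS : ∀ e ∈ S, e ∈ (lattice d).edgeSet) {a : Pt d}
    {r : ℤ} {x y : Pt d} (hx : x ∈ cube a r) (hc : conn S x y) (hy : ∃ l, r ≤ |y l - a l|) :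
    ∃ z, (z ∈ cube a r ∧ ∃ l, |z l - a l| = r) ∧ conn (S ∩ latE (cube a r)) x z := by
  by_contra hcon
  have hcl : closedU S {z | conn (S ∩ latE (cube a r)) x z ∧ ∀ l, |z l - a l| < r} := by
    rintro u v ⟨h1, h2⟩ he
    have hadj : (lattice d).Adj u v := hS _ he
    have hv : v ∈ cube a r := mem_cube.2 fun l => by
      have b1 := abs_le.1 (adj_le hadj l)
      have b2 := abs_lt.1 (h2 l)
      rw [abs_le]; constructor <;> omega
    have hc' : conn (S ∩ latE (cube a r)) x v := conn_trans h1 (conn_edge (mem_inter.2 ⟨he,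
      mk_mem_latE.2 ⟨mem_cube.2 fun l => (h2 l).le, hv, hadj⟩⟩))
    refine ⟨hc', fun l => lt_of_le_of_ne (mem_cube.1 hv l) fun h => hcon ⟨v, ⟨hv, l, h⟩, hc'⟩⟩
  have hx' : x ∈ {z | conn (S ∩ latE (cube a r)) x z ∧ ∀ l, |z l - a l| < r} :=
    ⟨conn_refl _ _, fun l => lt_of_le_of_ne (mem_cube.1 hx l)
      fun h => hcon ⟨x, ⟨hx, l, h⟩, conn_refl _ _⟩⟩
  obtain ⟨l, hl⟩ := hy
  exact absurd ((closed_conn hcl hx' hc).2 l) (not_lt.2 hl)

/-- Signed permutation followed by a translation. -/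
def aut (a : Pt d) (π : Equiv.Perm (Fin d)) (σ : Fin d → ℤˣ) : Pt d ≃ Pt d where
  toFun y := fun l => a l + σ l * y (π l)
  invFun z := fun l => σ (π.symm l) * (z (π.symm l) - a (π.symm l))
  left_inv y := by
    funext l
    simp [← mul_assoc, Int.units_coe_mul_self]
  right_inv z := by
    funext l
    simp [← mul_assoc, Int.units_coe_mul_self]

lemma aut_apply (a : Pt d) (π : Equiv.Perm (Fin d)) (σ : Fin d → ℤˣ) (y : Pt d) (l : Fin d) :
    aut a π σ y l = a l + σ l * y (π l) := rfl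

lemma abs_unit_mul (s : ℤˣ) (z : ℤ) : |(s : ℤ) * z| = |z| := by
  rcases Int.units_eq_one_or s with rfl | rfl <;> simp

lemma aut_adj (a : Pt d) (π : Equiv.Perm (Fin d)) (σ : Fin d → ℤˣ) (x y : Pt d) :
    (lattice d).Adj (aut a π σ x) (aut a π σ y) ↔ (lattice d).Adj x y := by
  rw [lat_adj, lat_adj, ← Equiv.sum_comp π (fun i => |x i - y i|)]
  have : ∀ l, |aut a π σ x l - aut a π σ y l| = |x (π l) - y (π l)| := fun l => by
    rw [aut_apply, aut_apply, ← abs_unit_mul (σ l) (x (π l) - y (π l))]; congr 1; ring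
  simp only [this]

lemma aut_abs (a : Pt d) (π : Equiv.Perm (Fin d)) (σ : Fin d → ℤˣ) (y : Pt d) (l : Fin d) :
    |aut a π σ y l - a l| = |y (π l)| := by
  rw [aut_apply, add_sub_cancel_left, abs_unit_mul]

lemma aut_cube (a : Pt d) (π : Equiv.Perm (Fin d)) (σ : Fin d → ℤˣ) (r : ℤ) (y : Pt d) :
    aut a π σ y ∈ cube a r ↔ y ∈ cube 0 r := by
  simp only [mem_cube, aut_abs, Pi.zero_apply, sub_zero]
  exact ⟨fun h l => by simpa using h (π.symm l), fun h l => h _⟩

def emb (φ : Pt d ≃ Pt d) : Sym2 (Pt d) ↪ Sym2 (Pt d) :=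
  ⟨Sym2.map φ, Sym2.map.injective φ.injective⟩

lemma mem_map_emb (φ : Pt d ≃ Pt d) (S : Finset (Sym2 (Pt d))) (x y : Pt d) :
    s(φ x, φ y) ∈ S.map (emb φ) ↔ s(x, y) ∈ S := by
  exact Finset.mem_map' (emb φ) (a := s(x, y))

lemma conn_map (φ : Pt d ≃ Pt d) (S : Finset (Sym2 (Pt d))) (x y : Pt d) :
    conn (S.map (emb φ)) (φ x) (φ y) ↔ conn S x y := by
  constructor
  · intro h
    have : ∀ z, conn (S.map (emb φ)) (φ x) z → conn S x (φ.symm z) := by
      intro z hz
      induction hz with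
      | refl => rw [φ.symm_apply_apply]; exact conn_refl _ _
      | tail _ h2 ih =>
        refine conn_trans ih (conn_edge ?_)
        rw [← mem_map_emb φ]; simpa using h2
    simpa using this _ h
  · intro h
    induction h with
    | refl => exact conn_refl _ _
    | tail _ h2 ih => exact conn_trans ih (conn_edge ((mem_map_emb φ S _ _).2 h2))

lemma latE_aut (a : Pt d) (π : Equiv.Perm (Fin d)) (σ : Fin d → ℤˣ) (r : ℤ) :
    latE (cube a r) = (latE (cube 0 r)).map (emb (aut a π σ)) := by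
  ext e
  induction e using Sym2.ind with
  | h x y =>
    obtain ⟨x, rfl⟩ := (aut a π σ).surjective x
    obtain ⟨y, rfl⟩ := (aut a π σ).surjective y
    rw [mem_map_emb, mk_mem_latE, mk_mem_latE, aut_cube, aut_cube, aut_adj]

lemma card_latE (a : Pt d) (r : ℤ) : (latE (cube a r)).card = (latE (cube (0 : Pt d) r)).card := by
  rw [latE_aut a 1 1 r, card_map]

lemma Ex_aut (a : Pt d) (π : Equiv.Perm (Fin d)) (σ : Fin d → ℤˣ) (r : ℤ) (P Q : Pt d → Prop) :
    Ex p (latE (cube a r)) (fun S => ind (¬ ∃ v, P v ∧ ∃ y, Q y ∧ conn S v y)) =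
    Ex p (latE (cube 0 r)) (fun S => ind (¬ ∃ v, P (aut a π σ v) ∧ ∃ y, Q (aut a π σ y) ∧
      conn S v y)) := by
  rw [latE_aut a π σ r, Ex_map]
  refine Ex_congr fun S _ => ind_congr (not_congr ⟨?_, ?_⟩)
  · rintro ⟨v, h1, y, h2, h3⟩
    obtain ⟨v, rfl⟩ := (aut a π σ).surjective v
    obtain ⟨y, rfl⟩ := (aut a π σ).surjective y
    exact ⟨v, h1, y, h2, (conn_map _ _ _ _).1 h3⟩
  · rintro ⟨v, h1, y, h2, h3⟩
    exact ⟨_, h1, _, h2, (conn_map _ _ _ _).2 h3⟩

end Vale.Agent.P151
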