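import Vale.Agent.P151.Param

namespace Vale.Agent.P151

open Finset MeasureTheory ProbabilityTheory Filter Topology

section
variable {V : Type*} [DecidableEq V]

open Classical in
noncomputable def tr (E : Finset (Sym2 V)) (ω : Set (Sym2 V)) : Finset (Sym2 V) :=
  E.filter (· ∈ ω)

omit [DecidableEq V] in
lemma mem_tr {E : Finset (Sym2 V)} {ω : Set (Sym2 V)} {e : Sym2 V} :
    e ∈ tr E ω ↔ e ∈ E ∧ e ∈ ω := by simp [tr]

instance (G : SimpleGraph V) (p : unitInterval) : IsProbabilityMeasure (perc G p) := by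
  unfold perc; infer_instance

omit [DecidableEq V] in
lemma meas_cyl (E S : Finset (Sym2 V)) : MeasurableSet {ω : Set (Sym2 V) | tr E ω = S} := by
  have : {ω : Set (Sym2 V) | tr E ω = S} =
      {ω | S ⊆ E} ∩ ⋂ e ∈ E, {ω : Set (Sym2 V) | e ∈ ω ↔ e ∈ S} := by
    ext ω
    simp only [Set.mem_setOf_eq, Set.mem_inter_iff, Set.mem_iInter, Finset.ext_iff, mem_tr]
    constructor
    · intro h
      exact ⟨fun e he => ((h e).2 he).1, fun e he => by rw [← h e]; simp [he]⟩
    · rintro ⟨h1, h2⟩ e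
      exact ⟨fun h => (h2 e h.1).1 h.2, fun h => ⟨h1 h, (h2 e (h1 h)).2 h⟩⟩
  rw [this]
  refine (MeasurableSet.const _).inter (Finset.measurableSet_biInter _ fun e _ => ?_)
  by_cases h : e ∈ S
  · simpa [h] using measurableSet_mem e
  · simpa [h] using measurableSet_notMem e

lemma perc_cyl (G : SimpleGraph V) (p : unitInterval) {E S : Finset (Sym2 V)}
    (hE : ∀ e ∈ E, e ∈ G.edgeSet) (hS : S ⊆ E) :
    (perc G p).real {ω | tr E ω = S} = wt (p : ℝ) E S := by
  unfold perc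
  rw [measureReal_def, setBernoulli_apply']
  have : (fun q : Sym2 V → Prop => {i | q i}) ⁻¹' {ω | tr E ω = S} =
      Set.pi (↑E) fun e => {b : Prop | b ↔ e ∈ S} := by
    ext q
    simp only [Set.mem_preimage, Set.mem_setOf_eq, Finset.ext_iff, mem_tr, Set.mem_pi, mem_coe]
    constructor
    · intro h e he
      rw [← h e]; simp [he]
    · intro h e
      exact ⟨fun h' => (h e h'.1).1 h'.2, fun h' => ⟨hS h', (h e (hS h')).2 h'⟩⟩
  rw [this, Measure.infinitePi_pi _ (fun _ _ => MeasurableSet.of_discrete), ENNReal.toReal_prod]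
  unfold wt
  refine Finset.prod_congr rfl fun e he => ?_
  by_cases h : e ∈ S
  · simp [h, hE e he, Set.indicator]
  · simp [h, hE e he, Set.indicator]

lemma perc_fin (G : SimpleGraph V) (p : unitInterval) {E : Finset (Sym2 V)}
    (hE : ∀ e ∈ E, e ∈ G.edgeSet) (P : Finset (Sym2 V) → Prop) :
    (perc G p).real {ω | P (tr E ω)} = Ex (p : ℝ) E (fun S => ind (P S)) := by
  classical
  have : {ω | P (tr E ω)} = ⋃ S ∈ E.powerset.filter P, {ω | tr E ω = S} := by
    ext ω
    simp only [Set.mem_setOf_eq, mem_filter, mem_powerset, Set.mem_iUnion, exists_prop]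
    constructor
    · intro h; exact ⟨_, ⟨fun e he => (mem_tr.1 he).1, h⟩, rfl⟩
    · rintro ⟨S, ⟨_, h⟩, rfl⟩; exact h
  rw [this, measureReal_biUnion_finset (fun S _ T _ hne => Set.disjoint_left.2
    fun ω h1 h2 => hne (h1.symm.trans h2)) (fun S _ => meas_cyl E S)]
  unfold Ex
  rw [Finset.sum_filter]
  refine Finset.sum_congr rfl fun S hS => ?_
  beta_reduce
  split_ifs with h
  · rw [ind_true h, mul_one, perc_cyl G p hE (mem_powerset.1 hS)]
  · rw [ind_false h, mul_zero]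

omit [DecidableEq V] in
lemma reach_of_conn {S : Finset (Sym2 V)} {ω : Set (Sym2 V)} (h : ↑S ⊆ ω) {x y : V}
    (hc : conn S x y) : (SimpleGraph.fromEdgeSet ω).Reachable x y := by
  induction hc with
  | refl => rfl
  | tail _ h2 ih =>
    rename_i b c _
    by_cases hbc : b = c
    · rwa [← hbc]
    · exact ih.trans (SimpleGraph.Adj.reachable ((SimpleGraph.fromEdgeSet_adj _).2 ⟨h h2, hbc⟩))

lemma conn_of_reach {ω : Set (Sym2 V)} {x y : V} (h : (SimpleGraph.fromEdgeSet ω).Reachable x y) :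
    ∃ S : Finset (Sym2 V), ↑S ⊆ ω ∧ conn S x y := by
  rw [SimpleGraph.reachable_iff_reflTransGen] at h
  induction h with
  | refl => exact ⟨∅, by simp, conn_refl _ _⟩
  | tail _ h2 ih =>
    rename_i b c _
    obtain ⟨S, h3, h4⟩ := ih
    refine ⟨insert s(b, c) S, ?_, conn_trans (conn_mono (subset_insert _ _) h4)
      (conn_edge (mem_insert_self _ _))⟩
    rw [coe_insert]
    exact Set.insert_subset ((SimpleGraph.fromEdgeSet_adj _).1 h2).1 h3

end

variable {d : ℕ}

lemma pos_of_far {q : unitInterval} (h : Far d q) :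
    0 < perc (lattice (d + 2)) q (infCluster (Pt (d + 2))) := by
  obtain ⟨O, hO⟩ := h
  set A : ℕ → Set (Set (Sym2 (Pt (d + 2)))) := fun n =>
    ⋃ S : {S : Finset (Sym2 (Pt (d + 2))) // ∃ v ∈ O, ∃ x, conn S v x ∧ (n : ℤ) ≤ x 0 + x 1},
      {ω | tr S.1 ω = S.1} with hA
  have mA : ∀ n ω, ω ∈ A n ↔ ∃ S : Finset (Sym2 (Pt (d + 2))), ↑S ⊆ ω ∧
      ∃ v ∈ O, ∃ x, conn S v x ∧ (n : ℤ) ≤ x 0 + x 1 := by
    intro n ω
    simp only [hA, Set.mem_iUnion, Set.mem_setOf_eq, Subtype.exists, exists_prop]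
    refine exists_congr fun S => ?_
    rw [and_comm]
    refine and_congr_left fun _ => ⟨fun h e he => ?_, fun h => ?_⟩
    · rw [mem_coe, ← h] at he; exact (mem_tr.1 he).2
    · ext e; rw [mem_tr]; exact ⟨fun h' => h'.1, fun h' => ⟨h', h h'⟩⟩
  have hm : ∀ n, MeasurableSet (A n) := fun n => MeasurableSet.iUnion fun S => meas_cyl _ _
  have hanti : Antitone A := fun n n' hn ω hω => by
    obtain ⟨S, h1, v, hv, x, h2, h3⟩ := (mA n' ω).1 hω
    exact (mA n ω).2 ⟨S, h1, v, hv, x, h2, le_trans (by exact_mod_cast hn) h3⟩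
  have hge : ∀ n, ENNReal.ofReal (1 / 2) ≤ perc (lattice (d + 2)) q (A n) := by
    intro n
    obtain ⟨E, hE, h⟩ := hO n
    rw [← perc_fin _ q hE] at h
    rw [ENNReal.ofReal_le_iff_le_toReal (measure_ne_top _ _)]
    refine h.trans (measureReal_mono fun ω hω => (mA n ω).2 ⟨tr E ω, fun e he => (mem_tr.1 he).2, hω⟩)
  have hlim := tendsto_measure_iInter_atTop (μ := perc (lattice (d + 2)) q)
    (fun n => (hm n).nullMeasurableSet) hanti ⟨0, measure_ne_top _ _⟩
  have h1 := ge_of_tendsto' hlim hge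
  refine lt_of_lt_of_le (by simp) (h1.trans (measure_mono fun ω hω => ?_))
  by_contra hcon
  have hfin : (⋃ v ∈ O, {y | (SimpleGraph.fromEdgeSet ω).Reachable v y}).Finite :=
    O.finite_toSet.biUnion fun v _ => Set.not_infinite.1 fun h => hcon ⟨v, h⟩
  obtain ⟨b, hb⟩ := (hfin.image fun x : Pt (d + 2) => x 0 + x 1).bddAbove
  obtain ⟨S, h1, v, hv, x, h2, h3⟩ := (mA (b.toNat + 1) ω).1 (Set.mem_iInter.1 hω _)
  have := hb ⟨x, Set.mem_biUnion hv (reach_of_conn h1 h2), rfl⟩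
  simp only at this
  push_cast at h3
  omega

lemma arm_of_pos {p : unitInterval} (h : perc (lattice d) p (infCluster (Pt d)) ≠ 0) :
    ∃ θ : ℝ, 0 < θ ∧ ∀ r : ℕ, θ ≤ arm d p r := by
  have e : infCluster (Pt d) = ⋃ x : Pt d,
      {ω | {y | (SimpleGraph.fromEdgeSet ω).Reachable x y}.Infinite} := by
    ext ω; simp [infCluster]
  rw [e, ne_eq, measure_iUnion_null_iff, not_forall] at h
  obtain ⟨x, hx⟩ := h
  refine ⟨(perc (lattice d) p).real {ω | {y | (SimpleGraph.fromEdgeSet ω).Reachable x y}.Infinite},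
    ENNReal.toReal_pos hx (measure_ne_top _ _), fun r => ?_⟩
  rw [← arm_eq x, ← perc_fin (lattice d) p (fun e he => (mem_latE.1 he).2)]
  refine ENNReal.toReal_mono (measure_ne_top _ _) (measure_mono_ae ?_)
  have hae : ∀ᵐ ω ∂(perc (lattice d) p), ω ⊆ (lattice d).edgeSet := setBernoulli_ae_subset
  filter_upwards [hae] with ω hω hinf
  obtain ⟨y, hy, hy'⟩ := Set.Infinite.exists_notMem_finset hinf (cube x r)
  obtain ⟨S, h1, h2⟩ := conn_of_reach hy
  rw [mem_cube, not_forall] at hy'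
  obtain ⟨l, hl⟩ := hy'
  obtain ⟨z, h3, h4⟩ := exit_cube (a := x) (r := r) (fun e he => hω (h1 he))
    (mem_cube.2 fun l => by simp) h2 ⟨l, (not_le.1 hl).le⟩
  exact ⟨z, h3, conn_mono (fun e he => mem_tr.2 ⟨(mem_inter.1 he).2, h1 (mem_inter.1 he).1⟩) h4⟩

lemma arm_zero : arm d (0 : ℝ) (1 : ℕ) = 0 := by
  have h := Ex_ge_empty (p := 0) le_rfl zero_le_one (latE (cube (0 : Pt d) (1 : ℕ)))
    (F := fun S => ind (¬ ∃ y, bd 0 (1 : ℕ) y ∧ conn S 0 y)) (fun _ _ => ind_nonneg _)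
  rw [Ex_ind_not, ind_true] at h
  · have := Ex_nonneg (p := 0) le_rfl zero_le_one (E := latE (cube (0 : Pt d) (1 : ℕ)))
      (F := fun S => ind (∃ y, bd 0 (1 : ℕ) y ∧ conn S 0 y)) (fun _ _ => ind_nonneg _)
    unfold arm
    simp only [sub_zero, one_pow, mul_one] at h
    linarith
  · rintro ⟨y, ⟨_, l, hl⟩, hc⟩
    have : y ∈ ({0} : Set (Pt d)) := closed_conn (fun a b _ he => absurd he (notMem_empty _)) rfl hc
    rw [Set.mem_singleton_iff.1 this] at hl
    simp at hl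

theorem no_percolation (d : ℕ) :
    perc (lattice (d + 2)) (pc (lattice (d + 2))) (infCluster (Pt (d + 2))) = 0 := by
  by_contra h
  set p := pc (lattice (d + 2)) with hp
  obtain ⟨θ, hθ, harm⟩ := arm_of_pos h
  have h0 : (0 : ℝ) < p := by
    refine lt_of_le_of_ne p.2.1 fun h' => ?_
    have := harm 1
    rw [← h', arm_zero] at this
    linarith
  have h1 : (p : ℝ) < 1 := by
    have : p ≤ ⟨1999 / 2000, by norm_num, by norm_num⟩ := sInf_le (pos_of_far far_one)
    exact lt_of_le_of_lt this (by norm_num)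
  obtain ⟨q, q0, q1, hq⟩ := exists_far h0 h1 hθ harm
  have : p ≤ ⟨q, q0, (q1.trans h1).le⟩ := sInf_le (pos_of_far hq)
  exact absurd this (not_le.2 q1)

theorem pc_lt_one (d : ℕ) : pc (lattice (d + 2)) < 1 :=
  lt_of_le_of_lt (sInf_le (pos_of_far (q := ⟨1999 / 2000, by norm_num, by norm_num⟩) far_one))
    (show (1999 / 2000 : ℝ) < 1 by norm_num)

end Vale.Agent.P151
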