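import Vale.Agent.P151.Renorm

namespace Vale.Agent.P151

open Finset

variable {d : ℕ} {p : ℝ}

noncomputable def missP (d : ℕ) (p : ℝ) (m J n : ℕ) (t : ℤ) (u : ℤ × ℤ)
    (B : Finset (Sym2 (Pt (d + 2)))) : ℝ :=
  Ex p (Rg d t n u) (fun ω => ind (¬ ∃ y ∈ Bx d t (m + J) u,
    conn (star d t m ∪ B ∪ ω) (orig d t) y))

lemma missP_anti (h0 : 0 ≤ p) (h1 : p ≤ 1) (m J n : ℕ) (t : ℤ) (u : ℤ × ℤ)
    {B B' : Finset (Sym2 (Pt (d + 2)))} (h : B ⊆ B') :
    missP d p m J n t u B' ≤ missP d p m J n t u B :=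
  Ex_mono h0 h1 fun _ _ => ind_mono fun hn ⟨y, hy, hc⟩ => hn ⟨y, hy, conn_mono
    (union_subset_union (union_subset_union subset_rfl h) subset_rfl) hc⟩

def PreE (d : ℕ) (p : ℝ) (m J n : ℕ) (t : ℤ) (u : ℤ × ℤ) (S : Finset (Sym2 (Pt (d + 2)))) : Prop :=
  missP d p m J n t u (S ∩ Lw d t n u.1) ≤ 1 / 2000

def OccE (d : ℕ) (p : ℝ) (m J n : ℕ) (t : ℤ) (u : ℤ × ℤ) (S : Finset (Sym2 (Pt (d + 2)))) : Prop :=
  ∀ b : Bool, missP d p m J n t (ch u b) (S ∩ Lw d t n u.1 ∪ S ∩ Rg d t n u) ≤ 1 / 2000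

noncomputable def sites (n : ℕ) : Finset (ℤ × ℤ) :=
  (Icc (0 : ℤ) n ×ˢ Icc (0 : ℤ) n).filter fun u => u.2 ≤ u.1

lemma mem_sites {n : ℕ} {u : ℤ × ℤ} : u ∈ sites n ↔ 0 ≤ u.2 ∧ u.2 ≤ u.1 ∧ u.1 ≤ n := by
  simp only [sites, mem_filter, mem_product, mem_Icc]; omega

lemma Rg_disj {t : ℤ} {n : ℕ} {u u' : ℤ × ℤ} (h : u ≠ u') :
    Disjoint (Rg d t n u) (Rg d t n u') :=
  Finset.disjoint_left.2 fun _ h1 h2 => h ((mem_filter.1 h1).2.symm.trans (mem_filter.1 h2).2)

lemma union_inter_of_disj {ι : Type*} [DecidableEq ι] {S S' R A : Finset ι} (hS : S ⊆ R)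
    (h : Disjoint R A) : (S ∪ S') ∩ A = S' ∩ A := by
  rw [union_inter_distrib_right, Finset.disjoint_iff_inter_eq_empty.1 (h.mono_left hS),
    empty_union]

lemma Rg_Lw {t : ℤ} {n : ℕ} {u : ℤ × ℤ} {k : ℤ} (h : k ≤ u.1) :
    Disjoint (Rg d t n u) (Lw d t n k) :=
  Finset.disjoint_left.2 fun _ h1 h2 => by
    have a1 := (mem_filter.1 h1).2
    have a2 := (mem_filter.1 h2).2
    rw [a1] at a2; omega

lemma ch_ne (u : ℤ × ℤ) (b : Bool) : u ≠ ch u b := by
  cases b <;> simp [ch, Prod.ext_iff]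

lemma fail_bound (h0 : 0 ≤ p) (h1 : p < 1) {m J N n : ℕ} {t : ℤ} (hJ : 0 < J) {κ : ℝ}
    (hκ : 0 < κ) (ht : (2 * d + 14 : ℤ) * (m + J) ≤ t)
    (herr : (d + 12) * err d p m J N t κ ≤ 1 / 8000000) {u : ℤ × ℤ} (hu : u ∈ sites n)
    {S' : Finset (Sym2 (Pt (d + 2)))} (hS' : S' ⊆ Eall d t n \ Rg d t n u) :
    Ex p (Rg d t n u) (fun S => ind (u ∈ sites n ∧ PreE d p m J n t u (S ∪ S') ∧
      ¬ OccE d p m J n t u (S ∪ S'))) ≤ 1 / 729 := by
  obtain ⟨hu0, hu1, hun⟩ := mem_sites.1 hu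
  set B2 := S' ∩ Lw d t n u.1 with hB2
  by_cases hpre : missP d p m J n t u B2 ≤ 1 / 2000
  · have key : ∀ b : Bool, Ex p (Rg d t n u) (fun S => ind ((∃ y ∈ Bx d t (m + J) u,
        conn (star d t m ∪ B2 ∪ S) (orig d t) y) ∧
        ¬ missP d p m J n t (ch u b) (B2 ∪ S) ≤ 1 / 2000)) ≤ 1 / 4000 := by
      intro b
      have hc := (child_bound (N := N) h0 h1 hJ hκ ht hu0 hu1 hun b
        (B2 := B2) inter_subset_right).trans herr
      rw [Ex_union (Rg_disj (ch_ne u b))] at hc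
      have : Ex p (Rg d t n u) (fun S => ind ((∃ y ∈ Bx d t (m + J) u,
        conn (star d t m ∪ B2 ∪ S) (orig d t) y) ∧
        ¬ missP d p m J n t (ch u b) (B2 ∪ S) ≤ 1 / 2000) * (1 / 2000)) ≤ 1 / 8000000 := by
        refine le_trans (Ex_mono h0 h1.le fun S _ => ?_) hc
        by_cases h : (∃ y ∈ Bx d t (m + J) u, conn (star d t m ∪ B2 ∪ S) (orig d t) y) ∧
            ¬ missP d p m J n t (ch u b) (B2 ∪ S) ≤ 1 / 2000
        · rw [ind_true h, one_mul]
          refine (not_le.1 h.2).le.trans (Ex_mono h0 h1.le fun ω _ => ind_mono fun hn => ⟨?_, ?_⟩)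
          · obtain ⟨y, hy, hc⟩ := h.1
            exact ⟨y, hy, conn_mono (union_subset_union subset_rfl subset_union_left) hc⟩
          · simpa only [union_assoc] using hn
        · rw [ind_false h, zero_mul]
          exact Ex_nonneg h0 h1.le fun _ _ => ind_nonneg _
      rw [Ex_mul_right] at this
      linarith
    have := add_le_add hpre (add_le_add (key true) (key false))
    unfold missP at this
    rw [← Ex_add, ← Ex_add] at this
    refine le_trans (Ex_mono h0 h1.le fun S hS => ?_) (this.trans (by norm_num))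
    refine le_trans (ind_or_le ?_) (add_le_add le_rfl (ind_or_le id))
    rintro ⟨_, _, hocc⟩
    by_cases h : ∃ y ∈ Bx d t (m + J) u, conn (star d t m ∪ B2 ∪ S) (orig d t) y
    · unfold OccE at hocc
      rw [union_inter_of_disj hS (Rg_Lw le_rfl), union_inter_eq hS hS', not_forall] at hocc
      obtain ⟨b, hb⟩ := hocc
      cases b
      · exact Or.inr (Or.inr ⟨h, hb⟩)
      · exact Or.inr (Or.inl ⟨h, hb⟩)
    · exact Or.inl h
  · refine Ex_le h0 h1.le fun S hS => ?_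
    rw [ind_false]
    · norm_num
    · rintro ⟨_, h, _⟩
      unfold PreE at h
      rw [union_inter_of_disj hS (Rg_Lw le_rfl)] at h
      exact hpre h

lemma star_elim {t : ℤ} {m : ℕ} {S : Finset (Sym2 (Pt (d + 2)))} {x : Pt (d + 2)}
    (h : conn (star d t m ∪ S) (orig d t) x) : ∃ v ∈ cube (orig d t) m, conn S v x := by
  refine closed_conn (T := cl S ↑(cube (orig d t) m)) ?_
    (subset_cl _ _ (mem_coe.2 (mem_cube.2 fun l => by simp))) h
  intro a b ha he
  rcases mem_union.1 he with h | h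
  · exact subset_cl _ _ (mem_coe.2 (star_coord h (Sym2.mem_mk_right _ _)))
  · exact cl_closed _ _ a b ha h

lemma far_of_pre (h0 : 0 ≤ p) (h1 : p ≤ 1) {m J n : ℕ} {t : ℤ} (ht0 : 0 < t)
    (ht : (2 * d + 14 : ℤ) * (m + J) ≤ t) {i : ℤ} {S : Finset (Sym2 (Pt (d + 2)))}
    (h : PreE d p m J n t (n, i) S) :
    ∃ v ∈ cube (orig d t) m, ∃ x, conn S v x ∧ 10 * t * n - 10 * t - 2 ≤ x 0 + x 1 := by
  have hex : ∃ ω ⊆ Rg d t n (n, i), ∃ y ∈ Bx d t (m + J) (n, i),
      conn (star d t m ∪ S ∩ Lw d t n n ∪ ω) (orig d t) y := by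
    by_contra hcon
    have : Ex p (Rg d t n (n, i)) (fun _ => (1 : ℝ)) ≤ missP d p m J n t (n, i) (S ∩ Lw d t n n) :=
      Ex_mono h0 h1 fun ω hω => (ind_true fun hh => hcon ⟨ω, hω, hh⟩).ge
    rw [Ex_const] at this
    unfold PreE at h
    linarith
  obtain ⟨ω, hω, y, hy, hc⟩ := hex
  have key : ∃ x, conn (star d t m ∪ S) (orig d t) x ∧ 10 * t * n - 10 * t - 2 ≤ x 0 + x 1 := by
    by_contra hcon
    have hcl : closedU (star d t m ∪ S ∩ Lw d t n n ∪ ω) (cl (star d t m ∪ S) {orig d t}) := by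
      intro a b ha he
      rcases mem_union.1 he with h | h
      · exact cl_closed _ _ a b ha (union_subset_union subset_rfl inter_subset_left h)
      · exfalso
        refine hcon ⟨a, mem_cl_single.1 ha, ?_⟩
        have hadj : (lattice (d + 2)).Adj a b := Rg_lat (hω h)
        have e := (mem_filter.1 (hω h)).2
        rw [elb_mk, Prod.ext_iff] at e
        have a0 := abs_le.1 (adj_le hadj 0)
        have a1 := abs_le.1 (adj_le hadj 1)
        have b0 : 10 * t * max (lev t (a 0)) (lev t (b 0)) - 5 * t - 1 ≤ a 0 := by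
          rcases max_choice (lev t (a 0)) (lev t (b 0)) with h | h <;> rw [h] <;>
            linarith [lev_le ht0 (a 0), lev_le ht0 (b 0)]
        have b1 : 10 * t * max (lev t (a 1)) (lev t (b 1)) - 5 * t - 1 ≤ a 1 := by
          rcases max_choice (lev t (a 1)) (lev t (b 1)) with h | h <;> rw [h] <;>
            linarith [lev_le ht0 (a 1), lev_le ht0 (b 1)]
        have e1 := e.1
        simp only at e1
        rw [← e1]
        linarith
    have := mem_cl_single.1 (closed_conn hcl (mem_cl_single.2 (conn_refl _ _)) hc)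
    refine hcon ⟨y, this, ?_⟩
    have a0 := abs_le.1 (mem_cube.1 hy 0)
    have a1 := abs_le.1 (mem_cube.1 hy 1)
    simp [ctr] at a0 a1
    have : 0 ≤ (d : ℤ) * (m + J) := by positivity
    have : 0 ≤ (m : ℤ) + J := by positivity
    linarith [a0.1, a1.1]
  obtain ⟨x, hx, hfar⟩ := key
  obtain ⟨v, hv, hc⟩ := star_elim hx
  exact ⟨v, hv, x, hc, hfar⟩

theorem renorm (h0 : 0 ≤ p) (h1 : p < 1) {m J N : ℕ} {t : ℤ} (hJ : 0 < J) {κ : ℝ}
    (hκ : 0 < κ) (ht : (2 * d + 14 : ℤ) * (m + J) ≤ t)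
    (herr : (d + 12) * err d p m J N t κ ≤ 1 / 8000000)
    (hfp : fp d p m t + 2 * err d p m J N t κ ≤ 1 / 2000) (n : ℕ) :
    1 / 2 ≤ Ex p (Eall d t n) (fun S => ind (∃ v ∈ cube (orig d t) m, ∃ x, conn S v x ∧
      10 * t * n - 10 * t - 2 ≤ x 0 + x 1)) := by
  have ht0 : 0 < t := by
    have : (0 : ℤ) < (2 * d + 14 : ℤ) * (m + J) := by positivity
    omega
  have := peierls h0 h1.le (E := Eall d t n) n (Rg d t n)
    (fun u S => u ∈ sites n ∧ PreE d p m J n t u S ∧ ¬ OccE d p m J n t u S)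
    (PreE d p m J n t) (sites n) (fun u S h => h.1) (fun u _ => filter_subset _ _)
    (fun u _ u' _ hne hle S hS S' _ => by
      unfold PreE OccE
      rw [union_inter_of_disj hS (Rg_Lw hle), union_inter_of_disj hS (Rg_disj hne.symm)])
    (fun u hu S' hS' => fail_bound h0 h1 hJ hκ ht herr hu hS')
    (fun S => by
      refine le_trans (missP_anti h0 h1.le m J n t (0, 0) (empty_subset _)) ?_
      unfold missP
      simp only [union_empty]
      exact (root_bound h0 h1 hJ hκ ht).trans hfp)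
    (fun S k i h0' hi hk hpre hz => by
      have hocc : OccE d p m J n t (k, i) S := by
        by_contra h
        exact hz ⟨mem_sites.2 ⟨h0', hi, hk.le⟩, hpre, h⟩
      have hsub : S ∩ Lw d t n k ∪ S ∩ Rg d t n (k, i) ⊆ S ∩ Lw d t n (k + 1) := by
        rw [← inter_union_distrib_left]
        refine inter_subset_inter subset_rfl fun e he => ?_
        rcases mem_union.1 he with h | h
        · exact mem_filter.2 ⟨(mem_filter.1 h).1, by have := (mem_filter.1 h).2; omega⟩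
        · exact mem_filter.2 ⟨(mem_filter.1 h).1, by rw [(mem_filter.1 h).2]; simp⟩
      exact ⟨(missP_anti h0 h1.le m J n t _ hsub).trans (hocc false),
        (missP_anti h0 h1.le m J n t _ hsub).trans (hocc true)⟩)
  exact this.trans (Ex_mono h0 h1.le fun S _ => ind_mono fun ⟨i, _, _, h⟩ =>
    far_of_pre h0 h1.le ht0 ht h)

end Vale.Agent.P151
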