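import Vale.Agent.P151.Main

namespace Vale.Agent.P151

open Finset Filter Topology

variable {d : ℕ} {p : ℝ}

def Far (d : ℕ) (q : ℝ) : Prop :=
  ∃ O : Finset (Pt (d + 2)), ∀ n : ℕ, ∃ E : Finset (Sym2 (Pt (d + 2))),
    (∀ e ∈ E, e ∈ (lattice (d + 2)).edgeSet) ∧
    1 / 2 ≤ Ex q E (fun S => ind (∃ v ∈ O, ∃ x, conn S v x ∧ (n : ℤ) ≤ x 0 + x 1))

lemma err_cont (h1 : p < 1) (m J N : ℕ) (hJ : 0 < J) (t : ℤ) (κ : ℝ) :
    ContinuousAt (fun q => err d q m J N t κ) p := by
  have c : Continuous fun q => fp d q m t := continuous_Ex _ _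
  unfold err
  refine ContinuousAt.add (ContinuousAt.add (ContinuousAt.div continuousAt_const (by fun_prop) ?_)
    (by fun_prop)) continuousAt_const
  have : (0 : ℝ) < J := by exact_mod_cast hJ
  exact (mul_pos (pow_pos (sub_pos.2 h1) _) this).ne'

lemma pow_small {q η : ℝ} (q0 : 0 ≤ q) (q1 : q ≤ 1) (hη : 0 < η) {N : ℕ} (hN : 1 / η ≤ N * q) :
    (1 - q) ^ N ≤ η := by
  have a1 : (1 - q) ^ N ≤ Real.exp (-q) ^ N :=
    pow_le_pow_left₀ (by linarith) (by linarith [Real.add_one_le_exp (-q)]) _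
  rw [← Real.exp_nat_mul, mul_neg, Real.exp_neg] at a1
  refine a1.trans ?_
  have a2 := Real.add_one_le_exp (N * q)
  rw [inv_le_comm₀ (Real.exp_pos _) hη, inv_eq_one_div]
  linarith

lemma exists_far (h0 : 0 < p) (h1 : p < 1) {θ : ℝ} (hθ : 0 < θ)
    (harm : ∀ r : ℕ, θ ≤ arm (d + 2) p r) : ∃ q, 0 ≤ q ∧ q < p ∧ Far d q := by
  set η : ℝ := 1 / (40000000 * (d + 12)) with hη
  have η0 : 0 < η := by positivity
  obtain ⟨m, hm⟩ := basic_input h0.le h1.le hθ harm
    (δ := min (η * η / (1 / η + 1)) (1 / 4000)) (by positivity)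
  set c := (latE (cube (0 : Pt (d + 2)) m)).card
  have pc0 : 0 < p ^ c := pow_pos h0 _
  have pc1 : p ^ c ≤ 1 := pow_le_one₀ h0.le h1.le
  set N := ⌈1 / η / p ^ c⌉₊
  have N1 : 1 / η ≤ N * p ^ c := by
    rw [← div_le_iff₀ pc0]; exact Nat.le_ceil _
  have N2 : N * p ^ c ≤ 1 / η + 1 := by
    have := (Nat.ceil_lt_add_one (show 0 ≤ 1 / η / p ^ c by positivity)).le
    refine (mul_le_mul_of_nonneg_right this pc0.le).trans ?_
    rw [add_mul, div_mul_cancel₀ _ pc0.ne']; linarith
  set η1 := (1 - p) ^ (Fintype.card (Fin (d + 2) → ZMod (4 * m + 1)) * N * 3 ^ (d + 2))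
  have η10 : 0 < η1 := pow_pos (sub_pos.2 h1) _
  set J := ⌈1 / η / η1⌉₊
  have hJ : 0 < J := Nat.ceil_pos.2 (by positivity)
  have J1 : 1 / (η1 * J) ≤ η := by
    have hJ' : (0 : ℝ) < J := by exact_mod_cast hJ
    have : 1 / η / η1 ≤ J := Nat.le_ceil _
    rw [div_le_iff₀ η10, div_le_iff₀ η0] at this
    rw [div_le_iff₀ (by positivity)]
    linarith
  set t : ℕ := (2 * d + 14) * (m + J)
  have hfp := hm t (by simp only [t]; nlinarith)
  rw [lt_min_iff] at hfp
  have herr : err d p m J N t η < 5 * η := by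
    have a1 := pow_small pc0.le pc1 η0 N1
    have a2 : N * (p ^ c * fp d p m t / η) ≤ η := by
      have f0 := fp_nonneg (d := d) h0.le h1.le m t
      have b1 := hfp.1.le
      rw [le_div_iff₀ (by positivity)] at b1
      rw [← mul_div_assoc, ← mul_assoc, div_le_iff₀ η0]
      nlinarith
    unfold err
    linarith
  have e1 := (err_cont (d := d) h1 m J N hJ t η).eventually (gt_mem_nhds herr)
  have c2 : Continuous fun q => fp d q m t := continuous_Ex _ _
  have e2 := c2.continuousAt.eventually (gt_mem_nhds hfp.2)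
  obtain ⟨q, ⟨b1, b2⟩, b3⟩ := (((e1.and e2).filter_mono nhdsWithin_le_nhds).and
    (Ioo_mem_nhdsLT h0)).exists
  have k1 : (d + 12) * err d q m J N t η ≤ 1 / 8000000 := by
    refine (mul_le_mul_of_nonneg_left b1.le (by positivity)).trans (le_of_eq ?_)
    rw [hη]; field_simp; norm_num
  have k2 : 5 * η ≤ 1 / 8000 := by
    rw [hη, ← mul_div_assoc, div_le_div_iff₀ (by positivity) (by positivity)]
    have : (0 : ℝ) ≤ d := by positivity
    linarith
  refine ⟨q, b3.1.le, b3.2, cube (orig d t) m, fun n => ⟨Eall d t (n + 2),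
    fun e he => (mem_latE.1 he).2, ?_⟩⟩
  refine (renorm b3.1.le (b3.2.trans h1) (N := N) hJ η0 (t := t) (by simp [t]) k1
    (by linarith) (n + 2)).trans (Ex_mono b3.1.le (b3.2.trans h1).le fun S _ => ind_mono ?_)
  rintro ⟨v, hv, x, hc, hx⟩
  refine ⟨v, hv, x, hc, le_trans ?_ hx⟩
  have : (1 : ℤ) ≤ t := by
    have : 0 < t := by positivity
    exact_mod_cast this
  push_cast
  nlinarith

lemma single_adj (x : Pt d) (l : Fin d) : (lattice d).Adj x (x + Pi.single l 1) := by
  have := adj_update x l 1 (by simp)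
  convert this using 1
  funext i
  by_cases h : i = l
  · subst h; simp
  · simp [h]

def vx (d : ℕ) (u : ℤ × ℤ) : Pt (d + 2) :=
  fun l => if l = 0 then u.2 else if l = 1 then u.1 - u.2 else 0

lemma vx_ch (u : ℤ × ℤ) (b : Bool) : vx d (ch u b) = vx d u + Pi.single (dir d b) 1 := by
  funext l
  cases b
  · by_cases h0 : l = 0
    · simp [vx, ch, dir, h0]
    · by_cases h1 : l = 1
      · simp [vx, ch, dir, h1]; ring
      · simp [vx, ch, dir, h0, h1]
  · by_cases h0 : l = 0
    · simp [vx, ch, dir, h0]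
    · by_cases h1 : l = 1
      · simp [vx, ch, dir, h1]
      · simp [vx, ch, dir, h0, h1]

lemma vx_inj {u u' : ℤ × ℤ} (h : vx d u = vx d u') : u = u' := by
  have a0 := congrFun h 0
  have a1 := congrFun h 1
  simp [vx] at a0 a1
  exact Prod.ext (by omega) a0

noncomputable def outE (d : ℕ) (u : ℤ × ℤ) : Finset (Sym2 (Pt (d + 2))) :=
  univ.image fun b : Bool => s(vx d u, vx d (ch u b))

lemma outE_disj {u u' : ℤ × ℤ} (h : u ≠ u') : Disjoint (outE d u) (outE d u') := by
  rw [Finset.disjoint_left]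
  intro e h1 h2
  obtain ⟨b, _, rfl⟩ := mem_image.1 h1
  obtain ⟨b', _, h3⟩ := mem_image.1 h2
  rcases Sym2.eq_iff.1 h3 with ⟨h4, _⟩ | ⟨h4, h5⟩
  · exact h (vx_inj h4).symm
  · have a1 := congrArg Prod.fst (vx_inj h4)
    have a2 := congrArg Prod.fst (vx_inj h5)
    cases b <;> cases b' <;> simp [ch] at a1 a2 <;> omega

lemma far_one : Far d (1999 / 2000) := by
  refine ⟨{vx d (0, 0)}, fun n => ⟨(sites n).biUnion (outE d), fun e he => ?_, ?_⟩⟩
  · obtain ⟨u, _, he⟩ := mem_biUnion.1 he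
    obtain ⟨b, _, rfl⟩ := mem_image.1 he
    rw [vx_ch]; exact single_adj _ _
  have := peierls (p := 1999 / 2000) (by norm_num) (by norm_num)
    (E := (sites n).biUnion (outE d)) n (outE d)
    (fun u S => u ∈ sites n ∧ ¬ outE d u ⊆ S)
    (fun u S => conn S (vx d (0, 0)) (vx d u)) (sites n) (fun u S h => h.1)
    (fun u hu => subset_biUnion_of_mem _ hu)
    (fun u _ u' _ hne _ S hS S' _ => by
      refine and_congr_right fun _ => not_congr ⟨fun h e he => ?_, fun h => h.trans subset_union_right⟩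
      exact (mem_union.1 (h he)).resolve_left
        fun h' => Finset.disjoint_left.1 (outE_disj hne) he (hS h'))
    (fun u _ S' _ => by
      refine le_trans (Ex_mono (by norm_num) (by norm_num) (G := fun S => ind (¬ outE d u ⊆ S))
        fun S _ => ind_mono fun h h' => h.2 (h'.trans subset_union_left)) ?_
      rw [Ex_ind_not, Ex_all_open]
      have hc : (outE d u).card ≤ 2 := card_image_le.trans (by simp)
      have := pow_le_pow_of_le_one (a := (1999 / 2000 : ℝ)) (by norm_num) (by norm_num) hc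
      linarith)
    (fun S => conn_refl _ _)
    (fun S k i h0' hi hk hpre hz => by
      have h : outE d (k, i) ⊆ S := by
        by_contra h
        exact hz ⟨mem_sites.2 ⟨h0', hi, hk.le⟩, h⟩
      exact ⟨conn_trans hpre (conn_edge (h (mem_image.2 ⟨false, mem_univ _, rfl⟩))),
        conn_trans hpre (conn_edge (h (mem_image.2 ⟨true, mem_univ _, rfl⟩)))⟩)
  refine this.trans (Ex_mono (by norm_num) (by norm_num) fun S _ => ind_mono ?_)
  rintro ⟨i, _, _, h⟩
  exact ⟨_, mem_singleton_self _, _, h, by simp [vx]⟩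

end Vale.Agent.P151
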