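import Vale.Agent.P151.Target

namespace Vale.Agent.P151

open Finset

variable {p : ℝ} {ι : Type*} [DecidableEq ι]

lemma all_fail (h0 : 0 ≤ p) (h1 : p ≤ 1) {E : Finset ι} (R : ℤ × ℤ → Finset ι)
    (Z : ℤ × ℤ → Finset ι → Prop) {ε : ℝ} (hε : 0 ≤ ε) (F : Finset (ℤ × ℤ))
    (hR : ∀ u ∈ F, R u ⊆ E)
    (ha : ∀ u ∈ F, ∀ u' ∈ F, u' ≠ u → u'.1 ≤ u.1 → ∀ S ⊆ R u, ∀ S' ⊆ E \ R u,
      (Z u' (S ∪ S') ↔ Z u' S'))
    (hb : ∀ u ∈ F, ∀ S' ⊆ E \ R u, Ex p (R u) (fun S => ind (Z u (S ∪ S'))) ≤ ε)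
    (W : Finset (ℤ × ℤ)) (hW : W ⊆ F) :
    Ex p E (fun S => ind (∀ u ∈ W, Z u S)) ≤ ε ^ W.card := by
  induction W using Finset.strongInduction with
  | H W ih =>
    rcases W.eq_empty_or_nonempty with rfl | hne
    · rw [card_empty, pow_zero]; exact Ex_le h0 h1 fun _ _ => ind_le_one _
    obtain ⟨u, hu, hmax⟩ := W.exists_max_image (fun u => u.1) hne
    have ih' := ih (W.erase u) (erase_ssubset hu) ((erase_subset _ _).trans hW)
    rw [← card_erase_add_one hu, pow_succ]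
    refine le_trans ?_ (mul_le_mul_of_nonneg_right ih' hε)
    rw [Ex_split' (hR u (hW hu)), Ex_split' (hR u (hW hu)), ← Ex_mul_right]
    refine Ex_mono h0 h1 fun S' hS' => ?_
    have key : ∀ S ⊆ R u, (∀ v ∈ W.erase u, Z v (S ∪ S')) ↔ ∀ v ∈ W.erase u, Z v S' :=
      fun S hS => forall₂_congr fun v hv => ha u (hW hu) v (hW (mem_of_mem_erase hv))
        (ne_of_mem_erase hv) (hmax v (mem_of_mem_erase hv)) S hS S' hS'
    have e1 : Ex p (R u) (fun S => ind (∀ v ∈ W.erase u, Z v (S ∪ S'))) =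
        ind (∀ v ∈ W.erase u, Z v S') := by
      rw [← Ex_const (p := p) (R u) (ind (∀ v ∈ W.erase u, Z v S'))]
      exact Ex_congr fun S hS => ind_congr (key S hS)
    have e2 : Ex p (R u) (fun S => ind (∀ v ∈ W, Z v (S ∪ S'))) =
        ind (∀ v ∈ W.erase u, Z v S') * Ex p (R u) (fun S => ind (Z u (S ∪ S'))) := by
      rw [← Ex_mul_left]
      refine Ex_congr fun S hS => ?_
      rw [← ind_and, ← key S hS]
      refine ind_congr ⟨fun h => ⟨fun v hv => h v (mem_of_mem_erase hv), h u hu⟩, fun h v hv => ?_⟩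
      by_cases hvu : v = u
      · rw [hvu]; exact h.2
      · exact h.1 v (mem_erase.2 ⟨hvu, hv⟩)
    rw [e1, e2]
    exact mul_le_mul_of_nonneg_left (hb u (hW hu) S' hS') (ind_nonneg _)

def mv (a : ℤ × ℤ) (m : Fin 3) : ℤ × ℤ :=
  if m = 0 then (a.1, a.2 + 1) else if m = 1 then (a.1 + 1, a.2) else (a.1 - 1, a.2 - 1)

def run : ℤ × ℤ → List (Fin 3) → ℤ × ℤ
  | a, [] => a
  | a, m :: l => run (mv a m) l

def pos : ℤ × ℤ → List (Fin 3) → List (ℤ × ℤ)
  | a, [] => [a]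
  | a, m :: l => a :: pos (mv a m) l

def Rl : ℤ × ℤ → List (Fin 3) → List (ℤ × ℤ)
  | _, [] => []
  | a, m :: l => if m = 0 then a :: Rl (mv a m) l else Rl (mv a m) l

def stp (Z : ℤ × ℤ → Prop) (a b : ℤ × ℤ) : Prop := ∃ m : Fin 3, b = mv a m ∧ (m = 0 → Z a)

lemma Rl_sublist (a : ℤ × ℤ) (l : List (Fin 3)) : (Rl a l).Sublist (pos a l) := by
  induction l generalizing a with
  | nil => simp [Rl]
  | cons m l ih =>
    simp only [Rl, pos]
    split_ifs
    · exact (ih _).cons₂ _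
    · exact (ih _).cons _

lemma len_eq (a : ℤ × ℤ) (l : List (Fin 3)) :
    (l.length : ℤ) = 3 * (Rl a l).length + ((run a l).1 - a.1) - 2 * ((run a l).2 - a.2) := by
  induction l generalizing a with
  | nil => simp [Rl, run]
  | cons m l ih =>
    have := ih (mv a m)
    fin_cases m <;> simp [Rl, run, mv] at this ⊢ <;> omega

lemma suffix_path {Z : ℤ × ℤ → Prop} {a a' : ℤ × ℤ} {l : List (Fin 3)} (h : a ∈ pos a' l)
    (hv : ∀ u ∈ Rl a' l, Z u) (hn : (pos a' l).Nodup) :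
    ∃ l', (∀ u ∈ Rl a l', Z u) ∧ run a l' = run a' l ∧ (pos a l').Nodup := by
  induction l generalizing a' with
  | nil =>
    simp only [pos, List.mem_singleton] at h
    exact ⟨[], by simp [Rl], by simp [run, h], by simp [pos]⟩
  | cons m l ih =>
    simp only [pos, List.mem_cons] at h
    rcases h with h | h
    · subst h; exact ⟨m :: l, hv, rfl, hn⟩
    · refine ih h (fun u hu => hv u ?_) (List.nodup_cons.1 hn).2
      simp only [Rl]
      split_ifs
      · exact List.mem_cons_of_mem _ hu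
      · exact hu

lemma exists_path {Z : ℤ × ℤ → Prop} {a b : ℤ × ℤ} (h : Relation.ReflTransGen (stp Z) a b) :
    ∃ l, (∀ u ∈ Rl a l, Z u) ∧ run a l = b ∧ (pos a l).Nodup := by
  induction h using Relation.ReflTransGen.head_induction_on with
  | refl => exact ⟨[], by simp [Rl], rfl, by simp [pos]⟩
  | head h1 _ ih =>
    rename_i a c _
    obtain ⟨l, hv, hr, hn⟩ := ih
    obtain ⟨m, rfl, hm⟩ := h1
    by_cases ha : a ∈ pos (mv a m) l
    · obtain ⟨l', b1, b2, b3⟩ := suffix_path ha hv hn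
      exact ⟨l', b1, b2.trans hr, b3⟩
    · refine ⟨m :: l, fun u hu => ?_, hr, List.nodup_cons.2 ⟨ha, hn⟩⟩
      simp only [Rl] at hu
      split_ifs at hu with h0
      · rcases List.mem_cons.1 hu with rfl | hu
        · exact hm h0
        · exact hv u hu
      · exact hv u hu

lemma reach_bound (h0 : 0 ≤ p) (h1 : p ≤ 1) {E : Finset ι} (Z : ℤ × ℤ → Finset ι → Prop)
    (F : Finset (ℤ × ℤ)) (hF : ∀ u S, Z u S → u ∈ F)
    (hP : ∀ W ⊆ F, Ex p E (fun S => ind (∀ u ∈ W, Z u S)) ≤ (1 / 729 : ℝ) ^ W.card) :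
    Ex p E (fun S => ind (Relation.ReflTransGen (stp fun u => Z u S) (0, 0) (0, 1))) ≤ 1 / 2 := by
  classical
  set L := 3 * F.card
  have i1 : Ex p E (fun S => ind (Relation.ReflTransGen (stp fun u => Z u S) (0, 0) (0, 1))) ≤
      Ex p E (fun S => ∑ n ∈ range L, ∑ w : Fin (n + 1) → Fin 3,
        ind ((∀ u ∈ Rl (0, 0) (List.ofFn w), Z u S) ∧ run (0, 0) (List.ofFn w) = (0, 1) ∧
          (pos (0, 0) (List.ofFn w)).Nodup)) := by
    refine Ex_mono h0 h1 fun S _ => ?_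
    by_cases h : Relation.ReflTransGen (stp fun u => Z u S) (0, 0) (0, 1)
    · obtain ⟨l, b1, b2, b3⟩ := exists_path h
      have hl := len_eq (0, 0) l
      rw [b2] at hl
      have hc : (Rl (0, 0) l).length ≤ F.card := by
        rw [← List.toFinset_card_of_nodup ((Rl_sublist _ _).nodup b3)]
        exact card_le_card fun u hu => hF u S (b1 u (List.mem_toFinset.1 hu))
      obtain ⟨n, hn⟩ : ∃ n, l.length = n + 1 := ⟨l.length - 1, by simp at hl; omega⟩
      have hnL : n ∈ range L := mem_range.2 (by simp at hl; omega)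
      rw [ind_true h]
      refine le_trans ?_ (Finset.single_le_sum (f := fun n => ∑ w : Fin (n + 1) → Fin 3,
        ind ((∀ u ∈ Rl (0, 0) (List.ofFn w), Z u S) ∧ run (0, 0) (List.ofFn w) = (0, 1) ∧
          (pos (0, 0) (List.ofFn w)).Nodup))
        (fun _ _ => Finset.sum_nonneg fun _ _ => ind_nonneg _) hnL)
      have hw : List.ofFn (fun i : Fin (n + 1) => l.get (i.cast hn.symm)) = l := by
        apply List.ext_get
        · rw [List.length_ofFn, hn]
        · intro i h1 h2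
          rw [List.get_ofFn]
          rfl
      refine le_trans ?_ (Finset.single_le_sum (f := fun w : Fin (n + 1) → Fin 3 =>
        ind ((∀ u ∈ Rl (0, 0) (List.ofFn w), Z u S) ∧ run (0, 0) (List.ofFn w) = (0, 1) ∧
          (pos (0, 0) (List.ofFn w)).Nodup))
        (fun _ _ => ind_nonneg _) (mem_univ (fun i : Fin (n + 1) => l.get (i.cast hn.symm))))
      simp only [hw]
      rw [ind_true ⟨b1, b2, b3⟩]
    · rw [ind_false h]
      exact Finset.sum_nonneg fun _ _ => Finset.sum_nonneg fun _ _ => ind_nonneg _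
  refine i1.trans ?_
  rw [Ex_sum]
  have i2 : ∀ n ∈ range L, Ex p E (fun S => ∑ w : Fin (n + 1) → Fin 3,
        ind ((∀ u ∈ Rl (0, 0) (List.ofFn w), Z u S) ∧ run (0, 0) (List.ofFn w) = (0, 1) ∧
          (pos (0, 0) (List.ofFn w)).Nodup)) ≤ (1 / 3 : ℝ) ^ (n + 1) := by
    intro n _
    rw [Ex_sum]
    have : (1 / 3 : ℝ) ^ (n + 1) = (univ : Finset (Fin (n + 1) → Fin 3)).card •
        (1 / 9 : ℝ) ^ (n + 1) := by
      rw [card_univ, Fintype.card_fun, Fintype.card_fin, Fintype.card_fin, nsmul_eq_mul]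
      push_cast
      rw [← mul_pow]; norm_num
    rw [this]
    refine Finset.sum_le_card_nsmul _ _ _ fun w _ => ?_
    by_cases hw : run (0, 0) (List.ofFn w) = (0, 1) ∧ (pos (0, 0) (List.ofFn w)).Nodup ∧
        (Rl (0, 0) (List.ofFn w)).toFinset ⊆ F
    · have hl := len_eq (0, 0) (List.ofFn w)
      rw [hw.1, List.length_ofFn] at hl
      have := hP _ hw.2.2
      rw [List.toFinset_card_of_nodup ((Rl_sublist _ _).nodup hw.2.1)] at this
      refine le_trans (Ex_mono h0 h1 fun S _ => ind_mono fun h u hu =>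
        h.1 u (List.mem_toFinset.1 hu)) (this.trans ?_)
      rw [show (1 / 729 : ℝ) = (1 / 9) ^ 3 by norm_num, ← pow_mul]
      exact pow_le_pow_of_le_one (by norm_num) (by norm_num) (by
        generalize (Rl (0, 0) (List.ofFn w)).length = r at hl ⊢
        simp at hl; omega)
    · refine Ex_le h0 h1 fun S _ => ?_
      rw [ind_false (fun h => hw ⟨h.2.1, h.2.2, fun u hu => hF u S (h.1 u (List.mem_toFinset.1 hu))⟩)]
      positivity
  refine (Finset.sum_le_sum i2).trans ?_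
  have : ∀ L : ℕ, ∑ n ∈ range L, (1 / 3 : ℝ) ^ (n + 1) = 1 / 2 - (1 / 2) * (1 / 3) ^ L := by
    intro L
    induction L with
    | zero => simp
    | succ L ih => rw [sum_range_succ, ih]; ring
  rw [this]
  have : (0 : ℝ) ≤ (1 / 2) * (1 / 3) ^ L := by positivity
  linarith

lemma survive {Z Pre : ℤ × ℤ → Prop} {n : ℕ} (hroot : Pre (0, 0))
    (hstep : ∀ k i : ℤ, 0 ≤ i → i ≤ k → k < n → Pre (k, i) → ¬ Z (k, i) →
      Pre (k + 1, i) ∧ Pre (k + 1, i + 1))
    (hn : ¬ Relation.ReflTransGen (stp Z) (0, 0) (0, 1)) :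
    ∃ i : ℤ, 0 ≤ i ∧ i ≤ n ∧ Pre (n, i) := by
  have key : ∀ k : ℕ, k ≤ n → ∃ i : ℤ, 0 ≤ i ∧ i ≤ k ∧ Pre (k, i) ∧
      Relation.ReflTransGen (stp Z) (0, 0) (k, i) ∧
      ¬ Relation.ReflTransGen (stp Z) (0, 0) (k, i + 1) := by
    intro k
    induction k with
    | zero => intro _; exact ⟨0, le_rfl, le_rfl, hroot, Relation.ReflTransGen.refl, hn⟩
    | succ k ih =>
      intro hk
      obtain ⟨i, b1, b2, b3, b4, b5⟩ := ih (by omega)
      have hz : ¬ Z (k, i) := fun h => b5 (b4.tail ⟨0, by simp [mv], fun _ => h⟩)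
      obtain ⟨c1, c2⟩ := hstep k i b1 b2 (by exact_mod_cast hk) b3 hz
      have d1 : Relation.ReflTransGen (stp Z) (0, 0) ((k : ℤ) + 1, i) :=
        b4.tail ⟨1, by simp [mv], by simp⟩
      have d2 : ¬ Relation.ReflTransGen (stp Z) (0, 0) ((k : ℤ) + 1, i + 1 + 1) :=
        fun h => b5 (h.tail ⟨2, by simp [mv], by simp⟩)
      push_cast
      by_cases h : Relation.ReflTransGen (stp Z) (0, 0) ((k : ℤ) + 1, i + 1)
      · exact ⟨i + 1, by omega, by omega, c2, h, d2⟩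
      · exact ⟨i, b1, by omega, c1, d1, h⟩
  obtain ⟨i, b1, b2, b3, _⟩ := key n le_rfl
  exact ⟨i, b1, b2, b3⟩

/-- Oriented renormalisation: survival to generation `n` with probability at least one half. -/
theorem peierls (h0 : 0 ≤ p) (h1 : p ≤ 1) {E : Finset ι} (n : ℕ) (R : ℤ × ℤ → Finset ι)
    (Z Pre : ℤ × ℤ → Finset ι → Prop) (F : Finset (ℤ × ℤ)) (hF : ∀ u S, Z u S → u ∈ F)
    (hR : ∀ u ∈ F, R u ⊆ E)
    (ha : ∀ u ∈ F, ∀ u' ∈ F, u' ≠ u → u'.1 ≤ u.1 → ∀ S ⊆ R u, ∀ S' ⊆ E \ R u,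
      (Z u' (S ∪ S') ↔ Z u' S'))
    (hb : ∀ u ∈ F, ∀ S' ⊆ E \ R u, Ex p (R u) (fun S => ind (Z u (S ∪ S'))) ≤ 1 / 729)
    (hroot : ∀ S, Pre (0, 0) S)
    (hstep : ∀ S, ∀ k i : ℤ, 0 ≤ i → i ≤ k → k < n → Pre (k, i) S → ¬ Z (k, i) S →
      Pre (k + 1, i) S ∧ Pre (k + 1, i + 1) S) :
    1 / 2 ≤ Ex p E (fun S => ind (∃ i : ℤ, 0 ≤ i ∧ i ≤ n ∧ Pre (n, i) S)) := by
  have h := reach_bound h0 h1 Z F hF (all_fail h0 h1 R Z (by norm_num) F hR ha hb)
  have h2 : Ex p E (fun S => ind (¬ Relation.ReflTransGen (stp fun u => Z u S) (0, 0) (0, 1))) ≤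
      Ex p E (fun S => ind (∃ i : ℤ, 0 ≤ i ∧ i ≤ n ∧ Pre (n, i) S)) :=
    Ex_mono h0 h1 fun S _ => ind_mono fun hn =>
      survive (Pre := fun u => Pre u S) (hroot S) (hstep S) hn
  rw [Ex_ind_not] at h2
  linarith

end Vale.Agent.P151
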