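import Vale.Agent.P151.Step
import Vale.Agent.P151.Peierls

namespace Vale.Agent.P151

open Finset

variable {d : ℕ} {p : ℝ}

def lev (t z : ℤ) : ℤ := (z + 5 * t) / (10 * t)

lemma lev_eq {t z a : ℤ} (ht : 0 < t) (h1 : 10 * t * a - 5 * t ≤ z) (h2 : z < 10 * t * a + 5 * t) :
    lev t z = a := by
  unfold lev
  apply le_antisymm
  · have : (z + 5 * t) / (10 * t) < a + 1 := (Int.ediv_lt_iff_lt_mul (by omega)).2 (by linarith)
    omega
  · exact (Int.le_ediv_iff_mul_le (by omega)).2 (by linarith)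

lemma lev_le {t : ℤ} (ht : 0 < t) (z : ℤ) : 10 * t * lev t z - 5 * t ≤ z := by
  have := Int.mul_ediv_self_le (x := z + 5 * t) (k := 10 * t) (by omega)
  unfold lev
  linarith

def elb (t : ℤ) : Sym2 (Pt (d + 2)) → ℤ × ℤ :=
  Sym2.lift ⟨fun x y => (max (lev t (x 0)) (lev t (y 0)) + max (lev t (x 1)) (lev t (y 1)),
    max (lev t (x 0)) (lev t (y 0))), fun x y => by simp only [max_comm]⟩

lemma elb_mk (t : ℤ) (x y : Pt (d + 2)) : elb t s(x, y) =
    (max (lev t (x 0)) (lev t (y 0)) + max (lev t (x 1)) (lev t (y 1)),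
      max (lev t (x 0)) (lev t (y 0))) := rfl

def ctr (d : ℕ) (t : ℤ) (u : ℤ × ℤ) : Pt (d + 2) :=
  fun l => if l = 0 then 10 * t * u.2 else if l = 1 then 10 * t * (u.1 - u.2) else 0

def ch (u : ℤ × ℤ) (b : Bool) : ℤ × ℤ := if b then (u.1 + 1, u.2 + 1) else (u.1 + 1, u.2)

def dir (d : ℕ) (b : Bool) : Fin (d + 2) := if b then 0 else 1

lemma ctr_ch (t : ℤ) (u : ℤ × ℤ) (b : Bool) :
    ctr d t (ch u b) = ctr d t u + Pi.single (dir d b) (10 * t) := by
  funext l
  cases b
  · by_cases h0 : l = 0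
    · simp [ctr, ch, dir, h0]
    · by_cases h1 : l = 1
      · simp [ctr, ch, dir, h1]; ring
      · simp [ctr, ch, dir, h0, h1]
  · by_cases h0 : l = 0
    · simp [ctr, ch, dir, h0]; ring
    · by_cases h1 : l = 1
      · simp [ctr, ch, dir, h1]
      · simp [ctr, ch, dir, h0, h1]

noncomputable def Eall (d : ℕ) (t : ℤ) (n : ℕ) : Finset (Sym2 (Pt (d + 2))) :=
  latE (cube 0 (10 * t * (n + 2)))

noncomputable def Rg (d : ℕ) (t : ℤ) (n : ℕ) (u : ℤ × ℤ) : Finset (Sym2 (Pt (d + 2))) :=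
  (Eall d t n).filter (fun e => elb t e = u)

noncomputable def Lw (d : ℕ) (t : ℤ) (n : ℕ) (k : ℤ) : Finset (Sym2 (Pt (d + 2))) :=
  (Eall d t n).filter (fun e => (elb t e).1 < k)

def orig (d : ℕ) (t : ℤ) : Pt (d + 2) := Pi.single 0 (-3 * t)

noncomputable def star (d : ℕ) (t : ℤ) (m : ℕ) : Finset (Sym2 (Pt (d + 2))) :=
  (cube (orig d t) m).image fun x => s(orig d t, x)

lemma star_coord {t : ℤ} {m : ℕ} {e : Sym2 (Pt (d + 2))} (he : e ∈ star d t m) {v : Pt (d + 2)}
    (hv : v ∈ e) : v ∈ cube (orig d t) m := by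
  obtain ⟨x, hx, rfl⟩ := mem_image.1 he
  rcases Sym2.mem_iff.1 hv with rfl | rfl
  · exact mem_cube.2 fun l => by simp
  · exact hx

lemma cube_orig {t : ℤ} {m : ℕ} {v : Pt (d + 2)} (hv : v ∈ cube (orig d t) m) :
    v 0 ≤ -3 * t + m := by
  have := abs_le.1 (mem_cube.1 hv 0)
  simp only [orig, Pi.single_eq_same] at this
  omega

lemma zone_lev {t s : ℤ} (ht : 0 < t) {u : ℤ × ℤ} {b : Bool} (hs0 : 0 ≤ s) (hs : s ≤ 10 * t)
    {x : Pt (d + 2)} (hx : x ∈ cube (ctr d t u + Pi.single (dir d b) s) (3 * t)) :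
    (lev t (x 0) = u.2 ∧ lev t (x 1) = u.1 - u.2) ∨
      (lev t (x 0) = (ch u b).2 ∧ lev t (x 1) = (ch u b).1 - (ch u b).2) := by
  have a0 := abs_le.1 (mem_cube.1 hx 0)
  have a1 := abs_le.1 (mem_cube.1 hx 1)
  cases b
  · simp [ctr, dir] at a0 a1
    simp only [ch, Bool.false_eq_true, if_false]
    have b0 : lev t (x 0) = u.2 := lev_eq ht (by omega) (by omega)
    by_cases h : x 1 < 10 * t * (u.1 - u.2) + 5 * t
    · exact Or.inl ⟨b0, lev_eq ht (by omega) h⟩
    · exact Or.inr ⟨b0, lev_eq ht (by linarith) (by linarith)⟩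
  · simp [ctr, dir] at a0 a1
    simp only [ch, if_true]
    have b0 : lev t (x 1) = u.1 - u.2 := lev_eq ht (by omega) (by omega)
    by_cases h : x 0 < 10 * t * u.2 + 5 * t
    · exact Or.inl ⟨lev_eq ht (by omega) h, b0⟩
    · exact Or.inr ⟨lev_eq ht (by linarith) (by linarith), by omega⟩

lemma zone_sub {t s : ℤ} {n : ℕ} (ht : 0 < t) {u : ℤ × ℤ} (hu0 : 0 ≤ u.2) (hu1 : u.2 ≤ u.1)
    (hun : u.1 ≤ n) {b : Bool} (hs0 : 0 ≤ s) (hs : s ≤ 10 * t) :
    latE (cube (ctr d t u + Pi.single (dir d b) s) (3 * t)) ⊆ Rg d t n u ∪ Rg d t n (ch u b) := by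
  intro e he
  have h1 : e ∈ Eall d t n := by
    refine latE_mono (cube_sub fun l => ?_) he
    have b1 : 10 * t * u.2 ≤ 10 * t * n := mul_le_mul_of_nonneg_left (by omega) (by omega)
    have b2 : 10 * t * (u.1 - u.2) ≤ 10 * t * n := mul_le_mul_of_nonneg_left (by omega) (by omega)
    have b3 : 0 ≤ 10 * t * u.2 := by positivity
    have b4 : 0 ≤ 10 * t * (u.1 - u.2) := mul_nonneg (by omega) (by omega)
    have b5 : 0 ≤ ctr d t u l ∧ ctr d t u l ≤ 10 * t * n := by
      unfold ctr; split_ifs <;> constructor <;> linarith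
    have b6 : 0 ≤ (Pi.single (dir d b) s : Pt (d + 2)) l ∧
        (Pi.single (dir d b) s : Pt (d + 2)) l ≤ 10 * t := by
      rw [Pi.single_apply]; split_ifs <;> constructor <;> linarith
    simp only [Pi.add_apply, Pi.zero_apply, sub_zero]
    rw [abs_of_nonneg (by linarith)]
    linarith
  induction e using Sym2.ind with
  | h x y =>
    have a1 := zone_lev ht hs0 hs (mk_mem_latE.1 he).1
    have a2 := zone_lev ht hs0 hs (mk_mem_latE.1 he).2.1
    simp only [Rg, mem_union, mem_filter, h1, true_and, elb_mk, Prod.ext_iff]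
    cases b <;> simp only [ch, Bool.false_eq_true, if_false, if_true] at a1 a2 ⊢ <;> omega

lemma Rg_lat {t : ℤ} {n : ℕ} {u : ℤ × ℤ} {e : Sym2 (Pt (d + 2))} (he : e ∈ Rg d t n u) :
    e ∈ (lattice (d + 2)).edgeSet := (mem_latE.1 (mem_filter.1 he).1).2

lemma step_ch (h0 : 0 ≤ p) (h1 : p < 1) {m J N n : ℕ} {t : ℤ} (hJ : 0 < J) {κ : ℝ} (hκ : 0 < κ)
    (hmt : (m : ℤ) < t) {u : ℤ × ℤ} (hu0 : 0 ≤ u.2) (hu1 : u.2 ≤ u.1) (hun : u.1 ≤ n) (b : Bool)
    {B2 : Finset (Sym2 (Pt (d + 2)))} (hB2 : B2 ⊆ Lw d t n u.1) {s : ℤ} (hs0 : 0 ≤ s)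
    (hs : s ≤ 10 * t) {w : Pt (d + 2)} (hw : ∀ l, 0 ≤ w l ∧ w l + (m + J) ≤ 2 * t)
    (T : Finset (Pt (d + 2)))
    (hT : ∀ a ∈ box (ctr d t u + Pi.single (dir d b) s) fun l => w l + (m + J),
      ∃ l0 σ, ∀ y, face a t l0 σ y → y ∈ T) :
    Ex p (Rg d t n u ∪ Rg d t n (ch u b)) (fun S => ind ((∃ x ∈ box
      (ctr d t u + Pi.single (dir d b) s) w, conn (star d t m ∪ B2 ∪ S) (orig d t) x) ∧
      ¬ ∃ y ∈ T, conn (star d t m ∪ B2 ∪ S) (orig d t) y)) ≤ err d p m J N t κ := by
  have ht : 0 < t := by omega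
  have hout : ∀ v ∈ cube (orig d t) m,
      v ∉ box (ctr d t u + Pi.single (dir d b) s) fun l => w l + (m + J) := by
    intro v hv h
    have a1 := cube_orig hv
    have a2 := (abs_le.1 (mem_box.1 h 0)).1
    have a3 := (hw 0).2
    have b3 : 0 ≤ 10 * t * u.2 := by positivity
    have b6 : 0 ≤ (Pi.single (dir d b) s : Pt (d + 2)) 0 := by
      rw [Pi.single_apply]; split_ifs <;> linarith
    simp only [Pi.add_apply, ctr, if_true] at a2
    linarith
  refine step h0 h1 m J N ht.le hJ hκ _ w (fun l => (hw l).1) (↑T) ?_ ?_ ?_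
    (hout _ (mem_cube.2 fun l => by simp)) hT
  · intro e he
    rcases mem_union.1 he with h | h <;> exact Rg_lat h
  · exact (latE_mono (box_mono fun l => by linarith [(hw l).2])).trans
      (zone_sub ht hu0 hu1 hun hs0 hs)
  · intro e he
    rcases mem_union.1 he with h | h
    · exact Or.inr fun v hv => hout v (star_coord h hv)
    · have := mem_filter.1 (hB2 h)
      refine Or.inl ⟨(mem_latE.1 this.1).2, fun h' => ?_⟩
      have h2 := this.2
      rcases mem_union.1 h' with h3 | h3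
      · rw [(mem_filter.1 h3).2] at h2; omega
      · rw [(mem_filter.1 h3).2] at h2
        cases b <;> simp [ch] at h2

noncomputable def Bx (d : ℕ) (t : ℤ) (R : ℕ) (u : ℤ × ℤ) : Finset (Pt (d + 2)) :=
  cube (ctr d t u) (t + (d + 2) * R)

lemma child_bound (h0 : 0 ≤ p) (h1 : p < 1) {m J N n : ℕ} {t : ℤ} (hJ : 0 < J) {κ : ℝ}
    (hκ : 0 < κ) (ht : (2 * d + 14 : ℤ) * (m + J) ≤ t) {u : ℤ × ℤ} (hu0 : 0 ≤ u.2)
    (hu1 : u.2 ≤ u.1) (hun : u.1 ≤ n) (b : Bool)
    {B2 : Finset (Sym2 (Pt (d + 2)))} (hB2 : B2 ⊆ Lw d t n u.1) :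
    Ex p (Rg d t n u ∪ Rg d t n (ch u b)) (fun S => ind ((∃ x ∈ Bx d t (m + J) u,
      conn (star d t m ∪ B2 ∪ S) (orig d t) x) ∧
      ¬ ∃ y ∈ Bx d t (m + J) (ch u b), conn (star d t m ∪ B2 ∪ S) (orig d t) y)) ≤
      (d + 12) * err d p m J N t κ := by
  set R : ℤ := m + J with hR
  have R0 : 0 < R := by omega
  have dR : 0 ≤ (d : ℤ) * R := by positivity
  have hmt : (m : ℤ) < t := by nlinarith
  have t0 : 0 < t := by omega
  have c1 := chain h0 h1.le (E := Rg d t n u ∪ Rg d t n (ch u b))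
    (fun (j : ℕ) S => ∃ x ∈ box (ctr d t u + Pi.single (dir d b) (j * t))
      (fun _ => t + (d + 2) * R + j * R), conn (star d t m ∪ B2 ∪ S) (orig d t) x)
    (ε := err d p m J N t κ) 10 (fun j hj => by
      have hj' : (j : ℤ) ≤ 9 := by omega
      have jR : 0 ≤ (j : ℤ) * R := by positivity
      have jR' : (j : ℤ) * R ≤ 9 * R := mul_le_mul_of_nonneg_right hj' R0.le
      refine step_ch h0 h1 hJ hκ hmt hu0 hu1 hun b hB2 (by positivity) (by nlinarith)
        (fun l => ⟨by positivity, by linarith⟩) _ fun a ha => ?_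
      obtain ⟨l1, σ, h⟩ := face_fwd (t := t) (l0 := dir d b) ha (fun l _ => by linarith)
      refine ⟨l1, σ, fun y hy => ?_⟩
      have := h y hy
      rw [add_assoc, ← Pi.single_add] at this
      push_cast
      rw [add_mul (j : ℤ) 1 t, add_mul (j : ℤ) 1 R, one_mul, one_mul, ← add_assoc]
      exact this)
  have c2 := chain h0 h1.le (E := Rg d t n u ∪ Rg d t n (ch u b))
    (fun (j : ℕ) S => ∃ x ∈ box (ctr d t u + Pi.single (dir d b) (10 * t))
      (fun l => if l.val < j then t + j * R else t + (d + 2) * R + 10 * R + j * R),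
        conn (star d t m ∪ B2 ∪ S) (orig d t) x)
    (ε := err d p m J N t κ) (d + 2) (fun j hj => by
      have hj' : (j : ℤ) ≤ d + 1 := by omega
      have jR : 0 ≤ (j : ℤ) * R := by positivity
      have jR' : (j : ℤ) * R ≤ (d + 1) * R := mul_le_mul_of_nonneg_right hj' R0.le
      refine step_ch h0 h1 hJ hκ hmt hu0 hu1 hun b hB2 (by positivity) le_rfl
        (fun l => by split_ifs <;> constructor <;> linarith) _ fun a ha => ?_
      refine face_con (l0 := ⟨j, hj⟩) ha (fun l hl => ?_) ?_ ?_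
      · have : l.val ≠ j := fun h => hl (Fin.ext h)
        push_cast
        split_ifs <;> first | omega | (constructor <;> linarith)
      · simp only [lt_self_iff_false, if_false]; linarith
      · simp only [Nat.lt_succ_self, if_true]; push_cast; linarith)
  have := add_le_add c1 c2
  rw [← Ex_add] at this
  refine le_trans (Ex_mono h0 h1.le fun S _ => ind_or_le ?_) (this.trans (le_of_eq ?_))
  · rintro ⟨⟨x, hx, hc⟩, hn⟩
    by_cases h : ∃ x ∈ box (ctr d t u + Pi.single (dir d b) (((10 : ℕ) : ℤ) * t))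
      (fun _ => t + (d + 2) * R + ((10 : ℕ) : ℤ) * R), conn (star d t m ∪ B2 ∪ S) (orig d t) x
    · refine Or.inr ⟨by simpa using h, ?_⟩
      rintro ⟨y, hy, hc⟩
      refine hn ⟨y, ?_, hc⟩
      rw [Bx, ctr_ch]
      refine box_mono (fun l => ?_) hy
      rw [if_pos l.2]
      push_cast
      rfl
    · refine Or.inl ⟨⟨x, ?_, hc⟩, h⟩
      simpa [Bx, cube] using hx
  · push_cast; ring

lemma root_sub {t : ℤ} {n : ℕ} (ht : 0 < t) :
    latE (cube (0 : Pt (d + 2)) (4 * t)) ⊆ Rg d t n (0, 0) := by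
  intro e he
  refine mem_filter.2 ⟨latE_mono (cube_sub fun l => ?_) he, ?_⟩
  · have : 0 ≤ t * n := by positivity
    simp only [sub_self, abs_zero]; linarith
  · induction e using Sym2.ind with
    | h x y =>
      have key : ∀ z ∈ cube (0 : Pt (d + 2)) (4 * t), ∀ l, lev t (z l) = 0 := fun z hz l => by
        have := abs_le.1 (mem_cube.1 hz l)
        simp only [Pi.zero_apply, sub_zero] at this
        exact lev_eq ht (by omega) (by omega)
      rw [elb_mk]
      simp [key x (mk_mem_latE.1 he).1, key y (mk_mem_latE.1 he).2.1]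

lemma root_bound (h0 : 0 ≤ p) (h1 : p < 1) {m J N n : ℕ} {t : ℤ} (hJ : 0 < J) {κ : ℝ}
    (hκ : 0 < κ) (ht : (2 * d + 14 : ℤ) * (m + J) ≤ t) :
    Ex p (Rg d t n (0, 0)) (fun S => ind (¬ ∃ y ∈ Bx d t (m + J) (0, 0),
      conn (star d t m ∪ S) (orig d t) y)) ≤ fp d p m t + 2 * err d p m J N t κ := by
  set R : ℤ := m + J with hR
  have R0 : 0 < R := by omega
  have dR : 0 ≤ (d : ℤ) * R := by positivity
  have hRt : 14 * R ≤ t := by nlinarith
  have t0 : 0 < t := by omega
  have c1 := chain h0 h1.le (E := Rg d t n (0, 0))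
    (fun (j : ℕ) S => ∃ x ∈ box (orig d t + Pi.single 0 (t + j * t))
      (fun l => if l = 0 then j * R else t + j * R), conn (star d t m ∪ S) (orig d t) x)
    (ε := err d p m J N t κ) 2 (fun j hj => by
      have hout : ∀ v ∈ cube (orig d t) m, v ∉ box (orig d t + Pi.single 0 (t + j * t))
          fun l => (if l = 0 then j * R else t + j * R) + (m + J) := by
        intro v hv h
        have a1 := cube_orig hv
        have a2 := (abs_le.1 (mem_box.1 h 0)).1
        simp only [Pi.add_apply, orig, Pi.single_eq_same, if_true] at a2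
        interval_cases j <;> simp at a2 <;> omega
      refine step h0 h1 m J N t0.le hJ hκ _ _ (fun l => by split_ifs <;> positivity) _
        (fun e he => Rg_lat he) ((latE_mono fun x hx => mem_cube.2 fun l => ?_).trans (root_sub t0))
        (fun e he => Or.inr fun v hv => hout v (star_coord he hv))
        (hout _ (mem_cube.2 fun l => by simp)) fun a ha => ?_
      · have := abs_le.1 (mem_box.1 hx l)
        simp only [Pi.add_apply, orig, Pi.single_apply] at this
        rw [abs_le]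
        simp only [Pi.zero_apply]
        interval_cases j <;> split_ifs at this <;> simp at this <;> omega
      · obtain ⟨l1, σ, h⟩ := face_fwd (t := t) (l0 := 0) ha (fun l hl => by
          rw [if_neg hl]; have : 0 ≤ (j : ℤ) * R := by positivity
          linarith)
        refine ⟨l1, σ, fun y hy => ?_⟩
        have := h y hy
        rw [add_assoc, ← Pi.single_add] at this
        rw [mem_coe]
        push_cast
        rw [add_mul (j : ℤ) 1 t, one_mul, ← add_assoc t]
        refine box_mono (fun l => ?_) this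
        split_ifs <;> linarith)
  obtain ⟨l1, σ, hf⟩ := face_fwd (c := orig d t) (a := orig d t) (t := t) (l0 := 0)
    (W := fun l => if l = 0 then 0 else t)
    (mem_box.2 fun l => by simp only [sub_self, abs_zero]; split_ifs <;> omega)
    (fun l hl => by rw [if_neg hl])
  have hs : latE (cube (orig d t) t) ⊆ Rg d t n (0, 0) := (latE_mono (cube_sub fun l => by
    simp only [orig, Pi.single_apply, Pi.zero_apply, sub_zero]
    split_ifs
    · rw [abs_of_nonpos (by omega)]; omega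
    · simp; omega)).trans (root_sub t0)
  rw [← fp_eq (orig d t) m t l1 σ, ← Ex_restrict hs]
  refine le_trans ?_ (add_le_add le_rfl (c1.trans (le_of_eq (by norm_num))))
  rw [← Ex_add]
  refine Ex_mono h0 h1.le fun S _ => ind_or_le fun hn => ?_
  by_cases h : ∃ v, v ∈ cube (orig d t) m ∧ ∃ y, face (orig d t) t l1 σ y ∧
      conn (S ∩ latE (cube (orig d t) t)) v y
  · obtain ⟨v, hv, y, hy, hc⟩ := h
    refine Or.inr ⟨⟨y, by simpa using hf y hy, conn_trans (conn_edge (mem_union_left _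
      (mem_image.2 ⟨v, hv, rfl⟩))) (conn_mono (inter_subset_left.trans subset_union_right) hc)⟩, ?_⟩
    rintro ⟨z, hz, hc⟩
    refine hn ⟨z, mem_cube.2 fun l => ?_, hc⟩
    have := mem_box.1 hz l
    have e : (orig d t + Pi.single 0 (t + ((2 : ℕ) : ℤ) * t) : Pt (d + 2)) l = ctr d t (0, 0) l := by
      simp only [Pi.add_apply, orig, Pi.single_apply, ctr]
      split_ifs <;> omega
    rw [e] at this
    refine this.trans ?_
    push_cast
    split_ifs <;> linarith
  · exact Or.inl h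

end Vale.Agent.P151
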