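import Vale.Agent.P151.Basic

namespace Vale.Agent.P151

open Finset

variable {d : ℕ} {p : ℝ}

noncomputable def err (d : ℕ) (p : ℝ) (m J N : ℕ) (t : ℤ) (κ : ℝ) : ℝ :=
  1 / ((1 - p) ^ (Fintype.card (Fin (d + 2) → ZMod (4 * m + 1)) * N * 3 ^ (d + 2)) * J) +
    ((1 - p ^ (latE (cube (0 : Pt (d + 2)) m)).card) ^ N +
      N * (p ^ (latE (cube (0 : Pt (d + 2)) m)).card * fp d p m t / κ)) + κ

lemma box_mono {c w w' : Pt d} (h : ∀ l, w l ≤ w' l) : box c w ⊆ box c w' := fun _ hx =>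
  mem_box.2 fun l => (mem_box.1 hx l).trans (h l)

def clamp (c W : Pt d) (m : ℤ) (x : Pt d) : Pt d :=
  fun l => max (c l - W l + m) (min (x l) (c l + W l - m))

lemma clamp_spec {c W : Pt d} {m : ℤ} (hm : 0 ≤ m) (hW : ∀ l, m ≤ W l) {x : Pt d}
    (hx : x ∈ box c W) (l : Fin d) :
    |x l - clamp c W m x l| ≤ m ∧ |clamp c W m x l - c l| ≤ W l - m := by
  have := abs_le.1 (mem_box.1 hx l)
  have := hW l
  simp only [clamp, abs_le]
  omega

lemma cube_sub_box {a c W : Pt d} {r : ℤ} (h : ∀ l, |a l - c l| + r ≤ W l) :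
    cube a r ⊆ box c W := by
  intro x hx
  rw [mem_cube] at hx
  rw [mem_box]
  intro l
  have := abs_sub_le (x l) (a l) (c l)
  linarith [hx l, h l]

theorem step (h0 : 0 ≤ p) (h1 : p < 1) {E B : Finset (Sym2 (Pt (d + 2)))} {o : Pt (d + 2)}
    (m J N : ℕ) {t : ℤ} (ht : 0 ≤ t) (hJ : 0 < J) {κ : ℝ} (hκ : 0 < κ) (c w : Pt (d + 2))
    (hw : ∀ l, 0 ≤ w l) (T : Set (Pt (d + 2)))
    (hE : ∀ e ∈ E, e ∈ (lattice (d + 2)).edgeSet)
    (hZ : latE (box c fun l => w l + (m + J) + t) ⊆ E)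
    (hB : ∀ e ∈ B, (e ∈ (lattice (d + 2)).edgeSet ∧ e ∉ E) ∨
      ∀ v ∈ e, v ∉ box c fun l => w l + (m + J))
    (ho : o ∉ box c fun l => w l + (m + J))
    (hT : ∀ a ∈ box c fun l => w l + (m + J), ∃ l0 σ, ∀ y, face a t l0 σ y → y ∈ T) :
    Ex p E (fun S => ind ((∃ x ∈ box c w, conn (B ∪ S) o x) ∧ ¬ ∃ y ∈ T, conn (B ∪ S) o y)) ≤
      err d p m J N t κ := by
  have m0 : (0 : ℤ) ≤ m := by positivity
  have sub1 : ∀ j : ℕ, j ≤ J → box c (fun l => w l + m + j) ⊆ box c fun l => w l + (m + J) :=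
    fun j hj => box_mono fun l => by omega
  have hWm : ∀ j : ℕ, ∀ l, (m : ℤ) ≤ w l + m + j := fun j l => by have := hw l; omega
  have key := target (E := E) (B := B) (o := o) h0 h1 (fun j : ℕ => box c fun l => w l + m + j)
    (J := J) (Δ := 3 ^ (d + 2)) hJ (deg_le hE) (fun j hj h => ho (sub1 j hj.le h))
    (fun j _ => box_mono fun l => by push_cast; omega)
    (fun j _ => box_mono fun l => by push_cast; omega)
    (fun j hj a ha b hab => by
      have hadj : s(a, b) ∈ (lattice (d + 2)).edgeSet → b ∈ box c fun l => w l + m + (j + 1 : ℕ) :=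
        fun h => mem_box.2 fun l => by
          have b1 := abs_le.1 (adj_le (x := a) (y := b) h l)
          have b2 := abs_le.1 (mem_box.1 ha l)
          rw [abs_le]; push_cast; constructor <;> omega
      have hnB : s(a, b) ∉ B := fun hb => by
        rcases hB _ hb with ⟨h1, h2⟩ | h
        · refine h2 (hZ (mk_mem_latE.2 ⟨box_mono (fun l => by omega) ha,
            box_mono (fun l => by push_cast; omega) (hadj h1), h1⟩))
        · exact h a (Sym2.mem_mk_left _ _) (sub1 j hj.le ha)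
      exact ⟨hnB, hadj (hE _ ((mem_union.1 hab).resolve_left hnB))⟩)
    (T := T) hκ (fp_nonneg (d := d) h0 h1.le m t) (c := (latE (cube (0 : Pt (d + 2)) m)).card)
    (N := N) (C := Fin (d + 2) → ZMod (4 * m + 1)) (fun x l => ((x l : ℤ) : ZMod (4 * m + 1)))
    (fun j x => latE (cube (clamp c (fun l => w l + m + (j + 1 : ℕ)) m x) m))
    (fun j x => ↑(cube (clamp c (fun l => w l + m + (j + 1 : ℕ)) m x) m))
    (fun j hj x hx => by
      have cs := clamp_spec m0 (hWm (j + 1)) hx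
      set a := clamp c (fun l => w l + m + (j + 1 : ℕ)) m x
      have hsub : cube a m ⊆ box c fun l => w l + m + (j + 1 : ℕ) :=
        cube_sub_box fun l => by linarith [(cs l).2]
      refine ⟨fun e he => mem_In.2 ⟨hZ (latE_mono (hsub.trans (box_mono fun l => ?_)) he),
        fun v hv => hsub ((mem_latE.1 he).1 v hv)⟩, card_latE _ _,
        fun v hv => cube_conn a m (mem_cube.2 fun l => (cs l).1) hv, ?_⟩
      · push_cast; omega
      · have ha : a ∈ box c fun l => w l + (m + J) := mem_box.2 fun l => by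
          have := (cs l).2; push_cast at this; omega
        obtain ⟨l0, σ, hf⟩ := hT a ha
        have hs : latE (cube a t) ⊆ E := (latE_mono (cube_sub_box fun l => by
          have := mem_box.1 ha l; omega)).trans hZ
        rw [← fp_eq a m t l0 σ, ← Ex_restrict hs]
        refine Ex_mono h0 h1.le fun S _ => ind_mono ?_
        rintro hn ⟨v, hv, y, hy, hc⟩
        exact hn ⟨v, hv, y, hf y hy, conn_mono (inter_subset_left.trans subset_union_right) hc⟩)
    (fun j hj x hx y hy hne hcls => by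
      obtain ⟨l, hl⟩ := Function.ne_iff.1 hne
      have hd : ((4 * m + 1 : ℕ) : ℤ) ∣ y l - x l :=
        (ZMod.intCast_eq_intCast_iff_dvd_sub _ _ _).1 (congrFun hcls l)
      have hle := Int.le_of_dvd (abs_pos.2 (sub_ne_zero.2 (Ne.symm hl))) ((dvd_abs _ _).2 hd)
      rw [Finset.disjoint_left]
      intro e h1 h2
      induction e using Sym2.ind with
      | h u v =>
        have a1 := abs_le.1 (mem_cube.1 (mk_mem_latE.1 h1).1 l)
        have a2 := abs_le.1 (mem_cube.1 (mk_mem_latE.1 h2).1 l)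
        have a3 := abs_le.1 (clamp_spec m0 (hWm (j + 1)) hx l).1
        have a4 := abs_le.1 (clamp_spec m0 (hWm (j + 1)) hy l).1
        rw [le_abs] at hle
        push_cast at hle
        omega)
  refine le_trans (Ex_mono h0 h1.le fun S _ => ind_mono ?_) key
  rintro ⟨⟨x, hx, hc⟩, hn⟩
  exact ⟨⟨x, box_mono (fun l => by push_cast; omega) hx, hc⟩, hn⟩

lemma chain {ι : Type*} [DecidableEq ι] (h0 : 0 ≤ p) (h1 : p ≤ 1) {E : Finset ι}
    (A : ℕ → Finset ι → Prop) {ε : ℝ} (K : ℕ)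
    (h : ∀ j < K, Ex p E (fun S => ind (A j S ∧ ¬ A (j + 1) S)) ≤ ε) :
    Ex p E (fun S => ind (A 0 S ∧ ¬ A K S)) ≤ K * ε := by
  induction K with
  | zero =>
    rw [Nat.cast_zero, zero_mul]
    exact Ex_le h0 h1 fun S _ => (ind_false fun h => h.2 h.1).le
  | succ K ih =>
    have := add_le_add (ih fun j hj => h j (by omega)) (h K (by omega))
    rw [← Ex_add] at this
    refine le_trans (Ex_mono h0 h1 fun S _ => ind_or_le fun hh => ?_) (this.trans (le_of_eq ?_))
    · by_cases hk : A K S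
      · exact Or.inr ⟨hk, hh.2⟩
      · exact Or.inl ⟨hh.1, hk⟩
    · push_cast; ring

def sg (z : ℤ) : ℤˣ := if 0 ≤ z then -1 else 1

lemma sg_bound {z y t W : ℤ} (h1 : 0 ≤ (sg z : ℤ) * y) (h2 : (sg z : ℤ) * y ≤ t) (hz : |z| ≤ W)
    (ht : t ≤ W) : |z + y| ≤ W := by
  unfold sg at h1 h2
  rw [abs_le] at hz ⊢
  split_ifs at h1 h2 <;> simp at h1 h2 <;> omega

lemma sg_bound2 {z y t : ℤ} (h2 : (sg z : ℤ) * y = t) (hz : |z| ≤ 2 * t) : |z + y| ≤ t := by
  unfold sg at h2
  rw [abs_le] at hz ⊢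
  split_ifs at h2 <;> simp at h2 <;> omega

lemma face_fwd {c W a : Pt d} {t : ℤ} {l0 : Fin d} (ha : a ∈ box c W)
    (hW : ∀ l, l ≠ l0 → t ≤ W l) :
    ∃ l1 σ, ∀ y, face a t l1 σ y → y ∈ box (c + Pi.single l0 t) W := by
  refine ⟨l0, fun l => if l = l0 then 1 else sg (a l - c l), fun y hy => mem_box.2 fun l => ?_⟩
  by_cases hl : l = l0
  · subst hl
    have := hy.2
    have h2 := mem_box.1 ha l
    simp only [if_true, Units.val_one, one_mul] at this
    simp only [Pi.add_apply, Pi.single_eq_same]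
    rwa [show y l - (c l + t) = a l - c l by omega]
  · have := hy.1 l
    simp only [if_neg hl] at this
    have h2 := sg_bound this.1 this.2 (mem_box.1 ha l) (hW l hl)
    simp only [Pi.add_apply, Pi.single_eq_of_ne hl, add_zero]
    rwa [show y l - c l = a l - c l + (y l - a l) by ring]

lemma face_con {c W W' a : Pt d} {t : ℤ} {l0 : Fin d} (ha : a ∈ box c W)
    (hW : ∀ l, l ≠ l0 → t ≤ W l ∧ W l ≤ W' l) (h2 : W l0 ≤ 2 * t) (h3 : t ≤ W' l0) :
    ∃ l1 σ, ∀ y, face a t l1 σ y → y ∈ box c W' := by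
  refine ⟨l0, fun l => sg (a l - c l), fun y hy => mem_box.2 fun l => ?_⟩
  rw [show y l - c l = a l - c l + (y l - a l) by ring]
  by_cases hl : l = l0
  · subst hl
    exact (sg_bound2 hy.2 ((mem_box.1 ha l).trans h2)).trans h3
  · exact (sg_bound (hy.1 l).1 (hy.1 l).2 (mem_box.1 ha l) (hW l hl).1).trans (hW l hl).2

end Vale.Agent.P151
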