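import Vale.Agent.P151.Glue2

set_option linter.unusedSectionVars false

namespace Vale.Agent.P151

open Finset

variable {p : ℝ}

lemma Ex_prod {ι κ : Type*} [DecidableEq ι] [DecidableEq κ] (W : Finset κ) (σ : κ → Finset ι)
    (F : κ → Finset ι → ℝ) (hd : ∀ x ∈ W, ∀ y ∈ W, x ≠ y → Disjoint (σ x) (σ y))
    (E : Finset ι) (hE : ∀ x ∈ W, σ x ⊆ E) :
    Ex p E (fun S => ∏ x ∈ W, F x (S ∩ σ x)) = ∏ x ∈ W, Ex p (σ x) (F x) := by
  induction W using Finset.induction_on generalizing E with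
  | empty => simp [Ex_const]
  | insert a W ha ih =>
    simp_rw [Finset.prod_insert ha]
    have hU : W.biUnion σ ⊆ E :=
      Finset.biUnion_subset.2 fun x hx => hE x (mem_insert_of_mem hx)
    have hdis : Disjoint (σ a) (W.biUnion σ) := by
      rw [Finset.disjoint_biUnion_right]
      intro x hx
      exact hd a (mem_insert_self _ _) x (mem_insert_of_mem hx) (fun h => ha (h ▸ hx))
    rw [← ih (fun x hx y hy => hd x (mem_insert_of_mem hx) y (mem_insert_of_mem hy))
      (W.biUnion σ) (fun x hx => subset_biUnion_of_mem σ hx),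
      ← Ex_indep (hE a (mem_insert_self _ _)) hU hdis]
    refine Ex_congr fun S _ => ?_
    congr 1
    refine Finset.prod_congr rfl fun x hx => ?_
    rw [Finset.inter_assoc, Finset.inter_eq_right.2 (subset_biUnion_of_mem σ hx)]

lemma ind_forall {κ : Type*} [DecidableEq κ] (W : Finset κ) (P : κ → Prop) :
    ind (∀ x ∈ W, P x) = ∏ x ∈ W, ind (P x) := by
  induction W using Finset.induction_on with
  | empty => simp [ind]
  | insert a W ha ih => rw [Finset.prod_insert ha, ← ih, ← ind_and]; exact ind_congr (by simp)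

lemma ind_exists_le {κ : Type*} (W : Finset κ) (P : κ → Prop) :
    ind (∃ x ∈ W, P x) ≤ ∑ x ∈ W, ind (P x) := by
  by_cases h : ∃ x ∈ W, P x
  · obtain ⟨x, hx, hP⟩ := h
    refine (ind_le_one _).trans ?_
    rw [← ind_true hP]
    exact Finset.single_le_sum (f := fun x => ind (P x)) (fun _ _ => ind_nonneg _) hx
  · rw [ind_false h]; exact Finset.sum_nonneg fun _ _ => ind_nonneg _

lemma ind_or_le {P Q R : Prop} (h : P → Q ∨ R) : ind P ≤ ind Q + ind R := by
  by_cases hp : P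
  · rcases h hp with h | h
    · rw [ind_true hp, ind_true h]; linarith [ind_nonneg R]
    · rw [ind_true hp, ind_true h]; linarith [ind_nonneg Q]
  · rw [ind_false hp]; linarith [ind_nonneg Q, ind_nonneg R]

variable {V : Type*} [DecidableEq V]

open Classical in
noncomputable def In (E : Finset (Sym2 V)) (D : Finset V) : Finset (Sym2 V) :=
  E.filter (fun e => ∀ v ∈ e, v ∈ D)

lemma mem_In {E : Finset (Sym2 V)} {D : Finset V} {e : Sym2 V} :
    e ∈ In E D ↔ e ∈ E ∧ ∀ v ∈ e, v ∈ D := by simp [In]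

lemma In_subset (E : Finset (Sym2 V)) (D : Finset V) : In E D ⊆ E := fun _ h => (mem_In.1 h).1

open Classical in
noncomputable def Kc (E B : Finset (Sym2 V)) (o : V) (D : Finset V) (S : Finset (Sym2 V)) :
    Finset V := D.filter (fun x => conn (B ∪ S \ In E D) o x)

lemma mem_Kc {E B : Finset (Sym2 V)} {o : V} {D : Finset V} {S : Finset (Sym2 V)} {x : V} :
    x ∈ Kc E B o D S ↔ x ∈ D ∧ conn (B ∪ S \ In E D) o x := by simp [Kc]

open Classical in
noncomputable def Ac (E B : Finset (Sym2 V)) (o : V) (D : Finset V) (S : Finset (Sym2 V)) :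
    Finset (Sym2 V) := (In E D).filter (fun e => ∃ x ∈ Kc E B o D S, x ∈ e)

lemma mem_Ac {E B : Finset (Sym2 V)} {o : V} {D : Finset V} {S : Finset (Sym2 V)} {e : Sym2 V} :
    e ∈ Ac E B o D S ↔ e ∈ In E D ∧ ∃ x ∈ Kc E B o D S, x ∈ e := by simp [Ac]

variable {E B : Finset (Sym2 V)} {o : V}

lemma Kc_closed {D : Finset V} {S : Finset (Sym2 V)} (h : Disjoint S (Ac E B o D S)) :
    closedU (B ∪ S) (cl (B ∪ S \ In E D) {o}) := by
  intro a b ha he
  by_cases hi : s(a, b) ∈ B ∪ S \ In E D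
  · exact cl_closed _ _ a b ha hi
  · exfalso
    simp only [mem_union, mem_sdiff, not_or, not_and, not_not] at hi he
    have hS : s(a, b) ∈ S := he.resolve_left hi.1
    have hI := hi.2 hS
    refine Finset.disjoint_left.1 h hS (mem_Ac.2 ⟨hI, a, ?_, Sym2.mem_mk_left _ _⟩)
    exact mem_Kc.2 ⟨(mem_In.1 hI).2 a (Sym2.mem_mk_left _ _), mem_cl_single.1 ha⟩

lemma Kc_nonempty {D : Finset V} {S : Finset (Sym2 V)} {x : V} (hx : x ∈ D)
    (hc : conn (B ∪ S) o x) : (Kc E B o D S).Nonempty := by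
  by_contra hne
  rw [Finset.not_nonempty_iff_eq_empty] at hne
  have hd : Disjoint S (Ac E B o D S) := by
    rw [Finset.disjoint_right]
    intro e he
    obtain ⟨_, y, hy, _⟩ := mem_Ac.1 he
    rw [hne] at hy
    exact absurd hy (notMem_empty _)
  have := closed_conn (Kc_closed hd) (mem_cl_single.2 (conn_refl _ _)) hc
  have : x ∈ Kc E B o D S := mem_Kc.2 ⟨hx, mem_cl_single.1 this⟩
  rw [hne] at this
  exact absurd this (notMem_empty _)

lemma Kc_union {D : Finset V} {S S' : Finset (Sym2 V)} (hS : S ⊆ In E D) (hS' : S' ⊆ E \ In E D) :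
    Kc E B o D (S ∪ S') = Kc E B o D S' := by
  ext x
  rw [mem_Kc, mem_Kc, union_sdiff_eq hS hS']
  have : S' \ In E D = S' := by
    rw [Finset.sdiff_eq_self_iff_disjoint]
    exact Finset.disjoint_left.2 fun e he => (mem_sdiff.1 (hS' he)).2
  rw [this]

lemma Ac_card {D : Finset V} {S : Finset (Sym2 V)} {Δ : ℕ}
    (hΔ : ∀ x, (E.filter (fun e => x ∈ e)).card ≤ Δ) :
    (Ac E B o D S).card ≤ (Kc E B o D S).card * Δ := by
  refine le_trans (card_le_card (t := (Kc E B o D S).biUnion fun x => E.filter (fun e => x ∈ e))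
    ?_) (card_biUnion_le_card_mul _ _ _ fun x _ => hΔ x)
  intro e he
  obtain ⟨h1, x, hx, hxe⟩ := mem_Ac.1 he
  exact mem_biUnion.2 ⟨x, hx, mem_filter.2 ⟨In_subset _ _ h1, hxe⟩⟩

lemma level_one (h0 : 0 ≤ p) (h1 : p ≤ 1) {D D' : Finset V} {Δ k : ℕ}
    (hΔ : ∀ x, (E.filter (fun e => x ∈ e)).card ≤ Δ) (ho : o ∉ D') (hsub : D' ⊆ D)
    (hb : ∀ a ∈ D', ∀ b, s(a, b) ∈ B ∪ E → s(a, b) ∉ B ∧ b ∈ D) :
    (1 - p) ^ (k * Δ) *
      Ex p E (fun S => ind ((Kc E B o D S).Nonempty ∧ (Kc E B o D S).card ≤ k)) ≤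
      Ex p E (fun S => ind (∃ x ∈ D, conn (B ∪ S) o x) - ind (∃ x ∈ D', conn (B ∪ S) o x)) := by
  have i1 : (1 - p) ^ (k * Δ) *
      Ex p E (fun S => ind ((Kc E B o D S).Nonempty ∧ (Kc E B o D S).card ≤ k)) ≤
      Ex p E (fun S => ind ((Kc E B o D S).Nonempty ∧ (Kc E B o D S).card ≤ k) *
        ind (Disjoint S (Ac E B o D S))) := by
    rw [Ex_split' (In_subset E D), Ex_split' (In_subset E D), ← Ex_mul_left]
    refine Ex_mono h0 h1 fun S' hS' => ?_
    have e1 : Ex p (In E D) (fun S => ind ((Kc E B o D (S ∪ S')).Nonempty ∧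
        (Kc E B o D (S ∪ S')).card ≤ k)) =
        ind ((Kc E B o D S').Nonempty ∧ (Kc E B o D S').card ≤ k) := by
      rw [← Ex_const (p := p) (In E D) (ind _)]
      exact Ex_congr fun S hS => by rw [Kc_union hS hS']
    have e2 : Ex p (In E D) (fun S => ind ((Kc E B o D (S ∪ S')).Nonempty ∧
        (Kc E B o D (S ∪ S')).card ≤ k) * ind (Disjoint (S ∪ S') (Ac E B o D (S ∪ S')))) =
        ind ((Kc E B o D S').Nonempty ∧ (Kc E B o D S').card ≤ k) *
          Ex p (In E D) (fun S => ind (Disjoint S (Ac E B o D S'))) := by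
      rw [← Ex_mul_left]
      refine Ex_congr fun S hS => ?_
      have : Ac E B o D (S ∪ S') = Ac E B o D S' := by unfold Ac; rw [Kc_union hS hS']
      rw [Kc_union hS hS', this]
      congr 1
      refine ind_congr ?_
      rw [Finset.disjoint_union_left, and_iff_left]
      exact Finset.disjoint_left.2 fun e he he' => (mem_sdiff.1 (hS' he)).2 (mem_Ac.1 he').1
    rw [e1, e2]
    by_cases hk : (Kc E B o D S').Nonempty ∧ (Kc E B o D S').card ≤ k
    · rw [ind_true hk, mul_one, one_mul]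
      refine le_trans ?_ (Ex_closed h0 h1 (fun e he => (mem_Ac.1 he).1))
      exact pow_le_pow_of_le_one (by linarith) (by linarith)
        ((Ac_card hΔ).trans (Nat.mul_le_mul_right _ hk.2))
    · rw [ind_false hk]; simp
  refine i1.trans (Ex_mono h0 h1 fun S hS => ?_)
  by_cases hk : ((Kc E B o D S).Nonempty ∧ (Kc E B o D S).card ≤ k) ∧ Disjoint S (Ac E B o D S)
  · obtain ⟨⟨⟨x, hx⟩, _⟩, hd⟩ := hk
    have a1 : ∃ x ∈ D, conn (B ∪ S) o x := ⟨x, (mem_Kc.1 hx).1,
      conn_mono (union_subset_union subset_rfl sdiff_subset) (mem_Kc.1 hx).2⟩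
    have a2 : ¬ ∃ x ∈ D', conn (B ∪ S) o x := by
      rintro ⟨y, hy, hc⟩
      have := mem_cl_single.1 (closed_conn (Kc_closed hd) (mem_cl_single.2 (conn_refl _ _)) hc)
      rcases Relation.ReflTransGen.cases_tail this with h | ⟨w, _, hw⟩
      · exact ho (h ▸ hy)
      · rw [Sym2.eq_swap] at hw
        have hw' : s(y, w) ∈ B ∪ E :=
          union_subset_union subset_rfl (sdiff_subset.trans hS) hw
        obtain ⟨c1, c2⟩ := hb y hy w hw'
        rcases mem_union.1 hw with h | h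
        · exact c1 h
        · refine (mem_sdiff.1 h).2 (mem_In.2 ⟨hS (mem_sdiff.1 h).1, fun v hv => ?_⟩)
          rcases Sym2.mem_iff.1 hv with rfl | rfl
          · exact hsub hy
          · exact c2
    rw [ind_true a1, ind_false a2, sub_zero, ← ind_and]
    exact ind_le_one _
  · rw [← ind_and, ind_false hk]
    exact sub_nonneg.2 (ind_mono fun ⟨x, hx, hc⟩ => ⟨x, hsub hx, hc⟩)

lemma level_exists (h0 : 0 ≤ p) (h1 : p < 1) (D : ℕ → Finset V) {J Δ k : ℕ} (hJ : 0 < J)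
    (hΔ : ∀ x, (E.filter (fun e => x ∈ e)).card ≤ Δ) (ho : ∀ j < J, o ∉ D j)
    (hsub : ∀ j < J, D j ⊆ D (j + 1))
    (hb : ∀ j < J, ∀ a ∈ D j, ∀ b, s(a, b) ∈ B ∪ E → s(a, b) ∉ B ∧ b ∈ D (j + 1)) :
    ∃ j < J, Ex p E (fun S => ind ((Kc E B o (D (j + 1)) S).Nonempty ∧
      (Kc E B o (D (j + 1)) S).card ≤ k)) ≤ 1 / ((1 - p) ^ (k * Δ) * J) := by
  by_contra hcon
  push Not at hcon
  have hη : 0 < (1 - p) ^ (k * Δ) := pow_pos (sub_pos.2 h1) _
  have hJ' : (0 : ℝ) < J := by exact_mod_cast hJ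
  have s1 : ∑ j ∈ range J, (1 / (J : ℝ)) < ∑ j ∈ range J,
      (Ex p E (fun S => ind (∃ x ∈ D (j + 1), conn (B ∪ S) o x)) -
        Ex p E (fun S => ind (∃ x ∈ D j, conn (B ∪ S) o x))) := by
    refine Finset.sum_lt_sum_of_nonempty (nonempty_range_iff.2 hJ.ne') fun j hj => ?_
    have hj' := mem_range.1 hj
    rw [← Ex_sub]
    refine lt_of_lt_of_le ?_ (level_one (k := k) h0 h1.le hΔ (ho j hj') (hsub j hj') (hb j hj'))
    have := mul_lt_mul_of_pos_left (hcon j hj') hη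
    refine lt_of_le_of_lt (le_of_eq ?_) this
    field_simp
  rw [Finset.sum_range_sub (fun j => Ex p E (fun S => ind (∃ x ∈ D j, conn (B ∪ S) o x)))] at s1
  have s2 : ∑ j ∈ range J, (1 / (J : ℝ)) = 1 := by
    rw [Finset.sum_const, card_range, nsmul_eq_mul]; field_simp
  have a1 := Ex_le h0 h1.le (E := E) (F := fun S => ind (∃ x ∈ D J, conn (B ∪ S) o x)) (c := 1)
    (fun _ _ => ind_le_one _)
  have a2 := Ex_nonneg h0 h1.le (E := E) (F := fun S => ind (∃ x ∈ D 0, conn (B ∪ S) o x))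
    (fun _ _ => ind_nonneg _)
  linarith

end Vale.Agent.P151
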