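import Vale.Agent.P151.Target

set_option linter.unusedSectionVars false

namespace Vale.Agent.P151

open Finset

variable {p : ℝ} {V : Type*} [DecidableEq V]

open Classical in
noncomputable def Good (p : ℝ) (E B : Finset (Sym2 V)) (D : Finset V) (T : Set V) (κ : ℝ)
    (ξ : Finset (Sym2 V)) : Finset V :=
  D.filter (fun x => Ex p (E \ In E D) (fun ζ => ind (¬ ∃ t ∈ T, conn (B ∪ ξ ∪ ζ) x t)) ≤ κ)

lemma mem_Good {E B : Finset (Sym2 V)} {D : Finset V} {T : Set V} {κ : ℝ} {ξ : Finset (Sym2 V)}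
    {x : V} : x ∈ Good p E B D T κ ξ ↔ x ∈ D ∧
      Ex p (E \ In E D) (fun ζ => ind (¬ ∃ t ∈ T, conn (B ∪ ξ ∪ ζ) x t)) ≤ κ := by simp [Good]

variable {E B : Finset (Sym2 V)} {o : V}

lemma step_glue (h0 : 0 ≤ p) (h1 : p < 1) (D : Finset V) (T : Set V) {κ : ℝ} (hκ : 0 ≤ κ) :
    Ex p E (fun S => ind ((∃ a ∈ Good p E B D T κ (S ∩ In E D), conn (B ∪ S) o a) ∧
      ¬ ∃ t ∈ T, conn (B ∪ S) o t)) ≤ κ := by
  rw [Ex_split (In_subset E D)]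
  refine Ex_le h0 h1.le fun ξ hξ => ?_
  refine le_trans (le_of_eq (Ex_congr fun ζ hζ => ?_))
    (glue (E := E \ In E D) (B := B ∪ ξ) (o := o) h0 h1 (Good p E B D T κ ξ) T hκ
      fun a ha => (mem_Good.1 ha).2)
  rw [union_inter_eq hξ hζ, union_assoc]

lemma seed_bad (h0 : 0 ≤ p) (h1 : p ≤ 1) {D : Finset V} {T : Set V} {κ δ : ℝ} (hκ : 0 < κ)
    {x : V} (hx : x ∈ D) {σ : Finset (Sym2 V)} (hσ : σ ⊆ In E D) {Λ : Set V}
    (hΛ : ∀ v ∈ Λ, conn σ x v)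
    (hδ : Ex p E (fun S => ind (¬ ∃ v ∈ Λ, ∃ t ∈ T, conn (B ∪ S) v t)) ≤ δ) :
    Ex p (In E D) (fun ξ => ind (σ ⊆ ξ ∧ x ∉ Good p E B D T κ ξ)) ≤ p ^ σ.card * δ / κ := by
  rw [le_div_iff₀ hκ, ← Ex_mul_right]
  have i1 : Ex p (In E D) (fun ξ => ind (σ ⊆ ξ ∧ x ∉ Good p E B D T κ ξ) * κ) ≤
      Ex p E (fun S => ind (σ ⊆ S) * ind (¬ ∃ v ∈ Λ, ∃ t ∈ T, conn (B ∪ S) v t)) := by
    rw [Ex_split (In_subset E D)]
    refine Ex_mono h0 h1 fun ξ hξ => ?_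
    by_cases h : σ ⊆ ξ ∧ x ∉ Good p E B D T κ ξ
    · rw [ind_true h, one_mul]
      have := h.2
      rw [mem_Good, not_and, not_le] at this
      refine (this hx).le.trans (Ex_mono h0 h1 fun ζ _ => ?_)
      rw [ind_true (h.1.trans subset_union_left), one_mul]
      refine ind_mono fun hn ⟨v, hv, t, ht, hc⟩ => hn ⟨t, ht, ?_⟩
      rw [union_assoc]
      exact conn_trans (conn_mono (h.1.trans (subset_union_left.trans subset_union_right))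
        (hΛ v hv)) hc
    · rw [ind_false h, zero_mul]
      exact Ex_nonneg h0 h1 fun _ _ => mul_nonneg (ind_nonneg _) (ind_nonneg _)
  refine i1.trans ((harris_anti h0 h1 E (F := fun S => ind (σ ⊆ S))
    (G := fun S => ind (¬ ∃ v ∈ Λ, ∃ t ∈ T, conn (B ∪ S) v t))
    (fun S S' h => ind_mono fun hh => hh.trans h)
    (fun S S' h => ind_mono fun hn ⟨v, hv, t, ht, hc⟩ =>
      hn ⟨v, hv, t, ht, conn_mono (union_subset_union subset_rfl h) hc⟩)).trans ?_)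
  rw [Ex_open (hσ.trans (In_subset _ _))]
  exact mul_le_mul_of_nonneg_left hδ (pow_nonneg h0 _)

lemma step_seed (h0 : 0 ≤ p) (h1 : p ≤ 1) {D : Finset V} {T : Set V} {κ δ : ℝ} (hκ : 0 < κ)
    (hδ0 : 0 ≤ δ) {c N : ℕ} {C : Type*} [Fintype C] [DecidableEq C] (cls : V → C)
    (σ : V → Finset (Sym2 V)) (Λ : V → Set V)
    (hσ : ∀ x ∈ D, σ x ⊆ In E D ∧ (σ x).card = c ∧ (∀ v ∈ Λ x, conn (σ x) x v) ∧
      Ex p E (fun S => ind (¬ ∃ v ∈ Λ x, ∃ t ∈ T, conn (B ∪ S) v t)) ≤ δ)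
    (hd : ∀ x ∈ D, ∀ y ∈ D, x ≠ y → cls x = cls y → Disjoint (σ x) (σ y)) :
    Ex p E (fun S => ind (Fintype.card C * N < (Kc E B o D S).card ∧
      ¬ ∃ a ∈ Good p E B D T κ (S ∩ In E D), conn (B ∪ S) o a)) ≤
      (1 - p ^ c) ^ N + N * (p ^ c * δ / κ) := by
  have pc0 : 0 ≤ p ^ c := pow_nonneg h0 _
  have pc1 : p ^ c ≤ 1 := pow_le_one₀ h0 h1
  rw [Ex_split' (In_subset E D)]
  refine Ex_le h0 h1 fun ζ hζ => ?_
  by_cases hk : Fintype.card C * N < (Kc E B o D ζ).card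
  · obtain ⟨y, _, hy⟩ := Finset.exists_lt_card_fiber_of_mul_lt_card_of_maps_to
      (s := Kc E B o D ζ) (t := Finset.univ) (f := cls) (n := N) (fun _ _ => mem_univ _)
      (by simpa using hk)
    obtain ⟨W, hW, hWc⟩ := Finset.exists_subset_card_eq hy.le
    have hWK : ∀ x ∈ W, x ∈ Kc E B o D ζ := fun x hx => (mem_filter.1 (hW hx)).1
    have hWD : ∀ x ∈ W, x ∈ D := fun x hx => (mem_Kc.1 (hWK x hx)).1
    have i1 : Ex p (In E D) (fun ξ => ind (Fintype.card C * N < (Kc E B o D (ξ ∪ ζ)).card ∧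
        ¬ ∃ a ∈ Good p E B D T κ ((ξ ∪ ζ) ∩ In E D), conn (B ∪ (ξ ∪ ζ)) o a)) ≤
        Ex p (In E D) (fun ξ => ∏ x ∈ W, ind (¬ σ x ⊆ ξ ∩ σ x) +
          ∑ x ∈ W, ind (σ x ⊆ ξ ∧ x ∉ Good p E B D T κ ξ)) := by
      refine Ex_mono h0 h1 fun ξ hξ => ?_
      rw [union_inter_eq hξ hζ, ← ind_forall]
      refine le_trans (ind_or_le ?_) (add_le_add le_rfl (ind_exists_le W _))
      rintro ⟨_, hn⟩
      by_cases hall : ∀ x ∈ W, ¬ σ x ⊆ ξ ∩ σ x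
      · exact Or.inl hall
      · push Not at hall
        obtain ⟨x, hx, hs⟩ := hall
        refine Or.inr ⟨x, hx, hs.trans inter_subset_left, fun hg => hn ⟨x, hg, ?_⟩⟩
        exact conn_mono (union_subset_union subset_rfl (sdiff_subset.trans subset_union_right))
          (mem_Kc.1 (hWK x hx)).2
    refine i1.trans ?_
    rw [Ex_add, Ex_sum, Ex_prod W σ (fun x R => ind (¬ σ x ⊆ R))
      (fun x hx y hy hne => hd x (hWD x hx) y (hWD y hy) hne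
        ((mem_filter.1 (hW hx)).2.trans (mem_filter.1 (hW hy)).2.symm)) _
      (fun x hx => (hσ x (hWD x hx)).1)]
    refine add_le_add (le_of_eq ?_) ?_
    · rw [Finset.prod_congr rfl (g := fun _ => 1 - p ^ c) (fun x hx => by
        rw [Ex_ind_not, Ex_all_open, (hσ x (hWD x hx)).2.1]), Finset.prod_const, hWc]
    · rw [← hWc, ← nsmul_eq_mul]
      refine Finset.sum_le_card_nsmul _ _ _ fun x hx => ?_
      obtain ⟨a1, a2, a3, a4⟩ := hσ x (hWD x hx)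
      rw [← a2]
      exact seed_bad h0 h1 hκ (hWD x hx) a1 a3 a4
  · refine Ex_le h0 h1 fun ξ hξ => ?_
    rw [Kc_union hξ hζ, ind_false (fun h => hk h.1)]
    have : 0 ≤ 1 - p ^ c := by linarith
    positivity

theorem target (h0 : 0 ≤ p) (h1 : p < 1) (D : ℕ → Finset V) {J Δ : ℕ} (hJ : 0 < J)
    (hΔ : ∀ x, (E.filter (fun e => x ∈ e)).card ≤ Δ) (ho : ∀ j < J, o ∉ D j)
    (hsub : ∀ j < J, D j ⊆ D (j + 1)) (hsub0 : ∀ j < J, D 0 ⊆ D (j + 1))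
    (hb : ∀ j < J, ∀ a ∈ D j, ∀ b, s(a, b) ∈ B ∪ E → s(a, b) ∉ B ∧ b ∈ D (j + 1))
    {T : Set V} {κ δ : ℝ} (hκ : 0 < κ) (hδ0 : 0 ≤ δ)
    {c N : ℕ} {C : Type*} [Fintype C] [DecidableEq C] (cls : V → C)
    (σ : ℕ → V → Finset (Sym2 V)) (Λ : ℕ → V → Set V)
    (hσ : ∀ j < J, ∀ x ∈ D (j + 1), σ j x ⊆ In E (D (j + 1)) ∧ (σ j x).card = c ∧
      (∀ v ∈ Λ j x, conn (σ j x) x v) ∧
      Ex p E (fun S => ind (¬ ∃ v ∈ Λ j x, ∃ t ∈ T, conn (B ∪ S) v t)) ≤ δ)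
    (hd : ∀ j < J, ∀ x ∈ D (j + 1), ∀ y ∈ D (j + 1), x ≠ y → cls x = cls y →
      Disjoint (σ j x) (σ j y)) :
    Ex p E (fun S => ind ((∃ x ∈ D 0, conn (B ∪ S) o x) ∧ ¬ ∃ t ∈ T, conn (B ∪ S) o t)) ≤
      1 / ((1 - p) ^ (Fintype.card C * N * Δ) * J) +
        ((1 - p ^ c) ^ N + N * (p ^ c * δ / κ)) + κ := by
  obtain ⟨j, hj, h⟩ := level_exists (E := E) (B := B) (o := o) (k := Fintype.card C * N)
    h0 h1 D hJ hΔ ho hsub hb
  refine le_trans ?_ (add_le_add (add_le_add h (step_seed (o := o) h0 h1.le hκ hδ0 cls (σ j) (Λ j)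
    (hσ j hj) (hd j hj))) (step_glue (E := E) (B := B) (o := o) h0 h1 (D (j + 1)) T hκ.le))
  rw [← Ex_add, ← Ex_add]
  refine Ex_mono h0 h1.le fun S _ => ?_
  by_cases hg : ∃ a ∈ Good p E B (D (j + 1)) T κ (S ∩ In E (D (j + 1))), conn (B ∪ S) o a
  · refine le_trans (ind_mono fun h => ⟨hg, h.2⟩) (le_add_of_nonneg_left ?_)
    exact add_nonneg (ind_nonneg _) (ind_nonneg _)
  · refine le_trans (ind_or_le ?_) (le_add_of_nonneg_right (ind_nonneg _))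
    rintro ⟨⟨x, hx, hc⟩, _⟩
    by_cases hk : (Kc E B o (D (j + 1)) S).card ≤ Fintype.card C * N
    · exact Or.inl ⟨Kc_nonempty (hsub0 j hj hx) hc, hk⟩
    · exact Or.inr ⟨not_le.1 hk, hg⟩

end Vale.Agent.P151
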